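import Vale.Agent.P354L.Defs
import Vale.Agent.P354.H298.Cut

set_option linter.unusedSectionVars false

open scoped ContDiff
open MeasureTheory Set Filter Topology

namespace Vale.Agent.P354L

open Vale.Agent.P354n (R4 nullBox deriv du dv cu cv c1 c2 InLp)
open Vale.Agent.P354r (exists_cut cS)

/-- the product of four functions of one variable -/
def p4 (h1 h2 h3 h4 : ℝ → ℝ) (w : R4) : ℝ := h1 w.1 * (h2 w.2.1 * (h3 w.2.2.1 * h4 w.2.2.2))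

lemma p4_int {h1 h2 h3 h4 : ℝ → ℝ} (i1 : Integrable h1) (i2 : Integrable h2) (i3 : Integrable h3)
    (i4 : Integrable h4) : Integrable (p4 h1 h2 h3 h4) ∧
      ∫ w, p4 h1 h2 h3 h4 w = (∫ t, h1 t) * ((∫ t, h2 t) * ((∫ t, h3 t) * ∫ t, h4 t)) := by
  refine ⟨i1.mul_prod (i2.mul_prod (i3.mul_prod i4)), ?_⟩
  have e1 := integral_prod_mul (μ := (volume : Measure ℝ)) (ν := (volume : Measure (ℝ × ℝ × ℝ))) h1
    (fun y : ℝ × ℝ × ℝ => h2 y.1 * (h3 y.2.1 * h4 y.2.2))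
  have e2 := integral_prod_mul (μ := (volume : Measure ℝ)) (ν := (volume : Measure (ℝ × ℝ))) h2
    (fun y : ℝ × ℝ => h3 y.1 * h4 y.2)
  have e3 := integral_prod_mul (μ := (volume : Measure ℝ)) (ν := (volume : Measure ℝ)) h3 h4
  calc ∫ w, p4 h1 h2 h3 h4 w = _ := e1
    _ = _ := by
      congr 1
      refine e2.trans ?_
      congr 1

lemma p4_contDiff {h1 h2 h3 h4 : ℝ → ℝ} (k1 : ContDiff ℝ 1 h1) (k2 : ContDiff ℝ 1 h2)
    (k3 : ContDiff ℝ 1 h3) (k4 : ContDiff ℝ 1 h4) : ContDiff ℝ 1 (p4 h1 h2 h3 h4) := by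
  unfold p4
  have e1 : ContDiff ℝ 1 (fun x : R4 => x.1) := by fun_prop
  have e2 : ContDiff ℝ 1 (fun x : R4 => x.2.1) := by fun_prop
  have e3 : ContDiff ℝ 1 (fun x : R4 => x.2.2.1) := by fun_prop
  have e4 : ContDiff ℝ 1 (fun x : R4 => x.2.2.2) := by fun_prop
  exact (k1.comp e1).mul ((k2.comp e2).mul ((k3.comp e3).mul (k4.comp e4)))

/-- derivative of a function along a coordinate -/
lemma p4_deriv {h1 h2 h3 h4 : ℝ → ℝ} (k1 : ContDiff ℝ 1 h1) (k2 : ContDiff ℝ 1 h2)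
    (k3 : ContDiff ℝ 1 h3) (k4 : ContDiff ℝ 1 h4) (w : R4) :
    deriv (p4 h1 h2 h3 h4) w du = p4 (_root_.deriv h1) h2 h3 h4 w ∧
    deriv (p4 h1 h2 h3 h4) w dv = p4 h1 (_root_.deriv h2) h3 h4 w ∧
    deriv (p4 h1 h2 h3 h4) w d1 = p4 h1 h2 (_root_.deriv h3) h4 w ∧
    deriv (p4 h1 h2 h3 h4) w d2 = p4 h1 h2 h3 (_root_.deriv h4) w := by
  have key : ∀ {h : ℝ → ℝ} (_ : ContDiff ℝ 1 h) (s : ℝ),
      HasDerivAt (fun t : ℝ => h (s + t * 1)) (_root_.deriv h s) 0 := by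
    intro h hh s
    have e1 : HasDerivAt h (_root_.deriv h s) (s + 0 * 1) := by
      rw [zero_mul, add_zero]
      exact (hh.differentiable (by norm_num) _).hasDerivAt
    have e2 : HasDerivAt (fun t : ℝ => s + t * 1) 1 0 := by
      have := ((hasDerivAt_id (0:ℝ)).mul_const 1).const_add s
      rwa [one_mul] at this
    have e3 := HasDerivAt.comp (0:ℝ) e1 e2
    rwa [mul_one] at e3
  have z : ∀ {h : ℝ → ℝ} (s : ℝ), HasDerivAt (fun t : ℝ => h (s + t * 0)) 0 0 := by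
    intro h s
    simp only [mul_zero, add_zero]
    exact hasDerivAt_const _ _
  refine ⟨?_, ?_, ?_, ?_⟩
  · have := ((key k1 w.1).mul ((z (h := h2) w.2.1).mul ((z (h := h3) w.2.2.1).mul
      (z (h := h4) w.2.2.2)))).deriv
    refine Eq.trans this ?_
    simp [p4]
  · have := ((z (h := h1) w.1).mul ((key k2 w.2.1).mul ((z (h := h3) w.2.2.1).mul
      (z (h := h4) w.2.2.2)))).deriv
    refine Eq.trans this ?_
    simp [p4]
  · have := ((z (h := h1) w.1).mul ((z (h := h2) w.2.1).mul ((key k3 w.2.2.1).mul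
      (z (h := h4) w.2.2.2)))).deriv
    refine Eq.trans this ?_
    simp [p4]
  · have := ((z (h := h1) w.1).mul ((z (h := h2) w.2.1).mul ((z (h := h3) w.2.2.1).mul
      (key k4 w.2.2.2)))).deriv
    refine Eq.trans this ?_
    simp [p4]

lemma mul_deriv {f g : R4 → ℝ} (hf : ContDiff ℝ 1 f) (hg : ContDiff ℝ 1 g) (w a : R4) :
    deriv (fun y => f y * g y) w a = deriv f w a * g w + f w * deriv g w a := by
  have h1 : HasLineDerivAt ℝ f (deriv f w a) w a :=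
    ((hf.differentiable (by norm_num)) w).lineDifferentiableAt.hasLineDerivAt
  have h2 : HasLineDerivAt ℝ g (deriv g w a) w a :=
    ((hg.differentiable (by norm_num)) w).lineDifferentiableAt.hasLineDerivAt
  have h3 := HasDerivAt.mul h1 h2
  have h4 := h3.deriv
  refine Eq.trans h4 ?_
  simp

lemma norm4 {w : R4} {c : ℝ} (h : ‖w‖ < c) : |w.1| < c ∧ |w.2.1| < c ∧ |w.2.2.1| < c ∧
    |w.2.2.2| < c := by
  have h1 : ‖w‖ = max |w.1| (max |w.2.1| (max |w.2.2.1| |w.2.2.2|)) := rfl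
  rw [h1, max_lt_iff, max_lt_iff, max_lt_iff] at h
  exact h

lemma p4_le {f1 f2 f3 f4 H1 H2 H3 H4 : ℝ → ℝ} {w : R4} (b1 : |f1 w.1| ≤ H1 w.1)
    (b2 : |f2 w.2.1| ≤ H2 w.2.1) (b3 : |f3 w.2.2.1| ≤ H3 w.2.2.1) (b4 : |f4 w.2.2.2| ≤ H4 w.2.2.2) :
    |p4 f1 f2 f3 f4 w| ≤ p4 H1 H2 H3 H4 w := by
  unfold p4
  rw [abs_mul, abs_mul, abs_mul]
  have g1 := (abs_nonneg _).trans b1
  have g2 := (abs_nonneg _).trans b2
  have g3 := (abs_nonneg _).trans b3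
  have g4 := (abs_nonneg _).trans b4
  exact mul_le_mul b1 (mul_le_mul b2 (mul_le_mul b3 b4 (abs_nonneg _) g3)
    (mul_nonneg (abs_nonneg _) (abs_nonneg _)) g2)
    (mul_nonneg (abs_nonneg _) (mul_nonneg (abs_nonneg _) (abs_nonneg _))) g1

lemma p4_nonneg {H1 H2 H3 H4 : ℝ → ℝ} {w : R4} (b1 : 0 ≤ H1 w.1) (b2 : 0 ≤ H2 w.2.1)
    (b3 : 0 ≤ H3 w.2.2.1) (b4 : 0 ≤ H4 w.2.2.2) : 0 ≤ p4 H1 H2 H3 H4 w :=
  mul_nonneg b1 (mul_nonneg b2 (mul_nonneg b3 b4))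

/-- the norm of a test function, pointwise -/
lemma test_pt {Q : Set R4} (hQ : IsClosed Q) {χ : R4 → ℝ} (hχ : ContDiff ℝ 1 χ) {M : ℝ}
    (hM : 0 ≤ M) (h0 : ∀ w ∈ Q, |χ w| ≤ M) (h1 : ∀ w ∈ Q, ∀ a : R4, ‖a‖ ≤ 1 → |deriv χ w a| ≤ M)
    {f1 f2 f3 f4 H1 H2 H3 H4 κ k : ℝ → ℝ} (c1' : ContDiff ℝ 1 f1) (c2' : ContDiff ℝ 1 f2)
    (c3' : ContDiff ℝ 1 f3) (c4' : ContDiff ℝ 1 f4) (hP : ∀ w, w ∉ Q → p4 f1 f2 f3 f4 w = 0)
    (b1 : ∀ v, |f1 v| ≤ H1 v) (b2 : ∀ v, |f2 v| ≤ H2 v) (b3 : ∀ v, |f3 v| ≤ H3 v)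
    (b4 : ∀ v, |f4 v| ≤ H4 v) (bκ : ∀ v, |(1 + k v) * f2 v| ≤ κ v) (w : R4) :
    ‖(1 + k (cv w)) * |χ w * p4 f1 f2 f3 f4 w| +
      |deriv (fun w => χ w * p4 f1 f2 f3 f4 w) w du| +
      |deriv (fun w => χ w * p4 f1 f2 f3 f4 w) w dv| +
      |deriv (fun w => χ w * p4 f1 f2 f3 f4 w) w d1| +
      |deriv (fun w => χ w * p4 f1 f2 f3 f4 w) w d2|‖ ≤
    M * p4 H1 κ H3 H4 w + 4 * (M * p4 H1 H2 H3 H4 w) +
      M * p4 (fun v => |_root_.deriv f1 v|) H2 H3 H4 w +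
      M * p4 H1 (fun v => |_root_.deriv f2 v|) H3 H4 w +
      M * p4 H1 H2 (fun v => |_root_.deriv f3 v|) H4 w +
      M * p4 H1 H2 H3 (fun v => |_root_.deriv f4 v|) w := by
  have p1 : ∀ v, 0 ≤ H1 v := fun v => (abs_nonneg _).trans (b1 v)
  have p2 : ∀ v, 0 ≤ H2 v := fun v => (abs_nonneg _).trans (b2 v)
  have p3 : ∀ v, 0 ≤ H3 v := fun v => (abs_nonneg _).trans (b3 v)
  have p4' : ∀ v, 0 ≤ H4 v := fun v => (abs_nonneg _).trans (b4 v)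
  have pκ : ∀ v, 0 ≤ κ v := fun v => (abs_nonneg _).trans (bκ v)
  have Pcd := p4_contDiff c1' c2' c3' c4'
  rw [Real.norm_eq_abs]
  have z0 : 0 ≤ p4 H1 κ H3 H4 w := p4_nonneg (p1 _) (pκ _) (p3 _) (p4' _)
  have z1 : 0 ≤ p4 H1 H2 H3 H4 w := p4_nonneg (p1 _) (p2 _) (p3 _) (p4' _)
  have z2 : 0 ≤ p4 (fun v => |_root_.deriv f1 v|) H2 H3 H4 w :=
    p4_nonneg (abs_nonneg _) (p2 _) (p3 _) (p4' _)
  have z3 : 0 ≤ p4 H1 (fun v => |_root_.deriv f2 v|) H3 H4 w :=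
    p4_nonneg (p1 _) (abs_nonneg _) (p3 _) (p4' _)
  have z4 : 0 ≤ p4 H1 H2 (fun v => |_root_.deriv f3 v|) H4 w :=
    p4_nonneg (p1 _) (p2 _) (abs_nonneg _) (p4' _)
  have z5 : 0 ≤ p4 H1 H2 H3 (fun v => |_root_.deriv f4 v|) w :=
    p4_nonneg (p1 _) (p2 _) (p3 _) (abs_nonneg _)
  by_cases hw : w ∈ Q
  · have hcm := h0 w hw
    have n1 : ‖du‖ ≤ 1 := by simp [du, Prod.norm_def]
    have n2 : ‖dv‖ ≤ 1 := by simp [dv, Prod.norm_def]
    have n3 : ‖d1‖ ≤ 1 := by simp [d1, Prod.norm_def]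
    have n4 : ‖d2‖ ≤ 1 := by simp [d2, Prod.norm_def]
    obtain ⟨m1, m2, m3, m4⟩ := p4_deriv c1' c2' c3' c4' w
    have t0 : |p4 f1 f2 f3 f4 w| ≤ p4 H1 H2 H3 H4 w := p4_le (b1 _) (b2 _) (b3 _) (b4 _)
    have t1 : |deriv (p4 f1 f2 f3 f4) w du| ≤ p4 (fun v => |_root_.deriv f1 v|) H2 H3 H4 w := by
      rw [m1]; exact p4_le (le_refl _) (b2 _) (b3 _) (b4 _)
    have t2 : |deriv (p4 f1 f2 f3 f4) w dv| ≤ p4 H1 (fun v => |_root_.deriv f2 v|) H3 H4 w := by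
      rw [m2]; exact p4_le (b1 _) (le_refl _) (b3 _) (b4 _)
    have t3 : |deriv (p4 f1 f2 f3 f4) w d1| ≤ p4 H1 H2 (fun v => |_root_.deriv f3 v|) H4 w := by
      rw [m3]; exact p4_le (b1 _) (b2 _) (le_refl _) (b4 _)
    have t4 : |deriv (p4 f1 f2 f3 f4) w d2| ≤ p4 H1 H2 H3 (fun v => |_root_.deriv f4 v|) w := by
      rw [m4]; exact p4_le (b1 _) (b2 _) (b3 _) (le_refl _)
    have der : ∀ v : R4, ‖v‖ ≤ 1 → ∀ {Z : ℝ}, |deriv (p4 f1 f2 f3 f4) w v| ≤ Z →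
        |deriv (fun w => χ w * p4 f1 f2 f3 f4 w) w v| ≤ M * p4 H1 H2 H3 H4 w + M * Z := by
      intro v hv Z hZ
      rw [mul_deriv hχ Pcd w v]
      refine (abs_add_le _ _).trans (add_le_add ?_ ?_)
      · rw [abs_mul]
        exact mul_le_mul (h1 w hw v hv) t0 (abs_nonneg _) hM
      · rw [abs_mul]
        exact mul_le_mul hcm hZ (abs_nonneg _) hM
    have u1 := der du n1 t1
    have u2 := der dv n2 t2
    have u3 := der d1 n3 t3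
    have u4 := der d2 n4 t4
    have u0 : abs ((1 + k (cv w)) * |χ w * p4 f1 f2 f3 f4 w|) ≤ M * p4 H1 κ H3 H4 w := by
      have e : abs ((1 + k (cv w)) * |χ w * p4 f1 f2 f3 f4 w|) =
          |χ w| * |p4 f1 (fun v => (1 + k v) * f2 v) f3 f4 w| := by
        rw [abs_mul, abs_abs, ← abs_mul, ← abs_mul]
        congr 1
        unfold p4
        show (1 + k w.2.1) * (χ w * (f1 w.1 * (f2 w.2.1 * (f3 w.2.2.1 * f4 w.2.2.2)))) =
          χ w * (f1 w.1 * ((1 + k w.2.1) * f2 w.2.1 * (f3 w.2.2.1 * f4 w.2.2.2)))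
        ring
      rw [e]
      exact mul_le_mul hcm (p4_le (b1 _) (bκ _) (b3 _) (b4 _)) (abs_nonneg _) hM
    generalize (1 + k (cv w)) * |χ w * p4 f1 f2 f3 f4 w| = X0 at *
    generalize deriv (fun w => χ w * p4 f1 f2 f3 f4 w) w du = X1 at *
    generalize deriv (fun w => χ w * p4 f1 f2 f3 f4 w) w dv = X2 at *
    generalize deriv (fun w => χ w * p4 f1 f2 f3 f4 w) w d1 = X3 at *
    generalize deriv (fun w => χ w * p4 f1 f2 f3 f4 w) w d2 = X4 at *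
    have y1 := abs_add_le (X0 + |X1| + |X2| + |X3|) |X4|
    have y2 := abs_add_le (X0 + |X1| + |X2|) |X3|
    have y3 := abs_add_le (X0 + |X1|) |X2|
    have y4 := abs_add_le X0 |X1|
    rw [abs_abs] at y1 y2 y3 y4
    linarith
  · have hloc : (fun w => χ w * p4 f1 f2 f3 f4 w) =ᶠ[𝓝 w] fun _ => 0 := by
      filter_upwards [hQ.isOpen_compl.mem_nhds hw] with y hy
      rw [hP y hy, mul_zero]
    have hz : ∀ v : R4, deriv (fun w => χ w * p4 f1 f2 f3 f4 w) w v = 0 := by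
      intro v
      have e : deriv (fun w => χ w * p4 f1 f2 f3 f4 w) w v =
        lineDeriv ℝ (fun _ : R4 => (0:ℝ)) w v := hloc.lineDeriv_eq
      rw [e]
      show _root_.deriv (fun _ : ℝ => (0:ℝ)) 0 = 0
      exact deriv_const _ _
    rw [hz, hz, hz, hz, hP w hw, mul_zero]
    simp only [abs_zero, mul_zero, add_zero]
    positivity

/-- the norm of a test function -/
lemma test_bd {Q : Set R4} (hQ : IsClosed Q) {χ : R4 → ℝ} (hχ : ContDiff ℝ 1 χ) {M : ℝ}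
    (hM : 0 ≤ M) (h0 : ∀ w ∈ Q, |χ w| ≤ M) (h1 : ∀ w ∈ Q, ∀ a : R4, ‖a‖ ≤ 1 → |deriv χ w a| ≤ M)
    {f1 f2 f3 f4 H1 H2 H3 H4 κ k : ℝ → ℝ} (c1' : ContDiff ℝ 1 f1) (c2' : ContDiff ℝ 1 f2)
    (c3' : ContDiff ℝ 1 f3) (c4' : ContDiff ℝ 1 f4) (hP : ∀ w, w ∉ Q → p4 f1 f2 f3 f4 w = 0)
    (b1 : ∀ v, |f1 v| ≤ H1 v) (b2 : ∀ v, |f2 v| ≤ H2 v) (b3 : ∀ v, |f3 v| ≤ H3 v)
    (b4 : ∀ v, |f4 v| ≤ H4 v) (bκ : ∀ v, |(1 + k v) * f2 v| ≤ κ v) (i1 : Integrable H1)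
    (i2 : Integrable H2) (i3 : Integrable H3) (i4 : Integrable H4) (iκ : Integrable κ)
    (j1 : Integrable (fun v => |_root_.deriv f1 v|)) (j2 : Integrable (fun v => |_root_.deriv f2 v|))
    (j3 : Integrable (fun v => |_root_.deriv f3 v|))
    (j4 : Integrable (fun v => |_root_.deriv f4 v|)) :
    ‖∫ w, ((1 + k (cv w)) * |χ w * p4 f1 f2 f3 f4 w| +
      |deriv (fun w => χ w * p4 f1 f2 f3 f4 w) w du| +
      |deriv (fun w => χ w * p4 f1 f2 f3 f4 w) w dv| +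
      |deriv (fun w => χ w * p4 f1 f2 f3 f4 w) w d1| +
      |deriv (fun w => χ w * p4 f1 f2 f3 f4 w) w d2|)‖ ≤
    M * ((∫ t, H1 t) * ((∫ t, κ t) * ((∫ t, H3 t) * ∫ t, H4 t))) +
      4 * (M * ((∫ t, H1 t) * ((∫ t, H2 t) * ((∫ t, H3 t) * ∫ t, H4 t)))) +
      M * ((∫ t, |_root_.deriv f1 t|) * ((∫ t, H2 t) * ((∫ t, H3 t) * ∫ t, H4 t))) +
      M * ((∫ t, H1 t) * ((∫ t, |_root_.deriv f2 t|) * ((∫ t, H3 t) * ∫ t, H4 t))) +
      M * ((∫ t, H1 t) * ((∫ t, H2 t) * ((∫ t, |_root_.deriv f3 t|) * ∫ t, H4 t))) +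
      M * ((∫ t, H1 t) * ((∫ t, H2 t) * ((∫ t, H3 t) * ∫ t, |_root_.deriv f4 t|))) := by
  have I0 := p4_int i1 iκ i3 i4
  have I1 := p4_int i1 i2 i3 i4
  have I2 := p4_int j1 i2 i3 i4
  have I3 := p4_int i1 j2 i3 i4
  have I4 := p4_int i1 i2 j3 i4
  have I5 := p4_int i1 i2 i3 j4
  have v1 := integral_add ((((((I0.1.const_mul M).add ((I1.1.const_mul M).const_mul 4)).add
    (I2.1.const_mul M)).add (I3.1.const_mul M)).add (I4.1.const_mul M))) (I5.1.const_mul M)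
  have v2 := integral_add (((((I0.1.const_mul M).add ((I1.1.const_mul M).const_mul 4)).add
    (I2.1.const_mul M)).add (I3.1.const_mul M))) (I4.1.const_mul M)
  have v3 := integral_add ((((I0.1.const_mul M).add ((I1.1.const_mul M).const_mul 4)).add
    (I2.1.const_mul M))) (I3.1.const_mul M)
  have v4 := integral_add (((I0.1.const_mul M).add ((I1.1.const_mul M).const_mul 4)))
    (I2.1.const_mul M)
  have v5 := integral_add (I0.1.const_mul M) ((I1.1.const_mul M).const_mul 4)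
  simp only [Pi.add_apply] at v1 v2 v3 v4 v5
  refine (norm_integral_le_of_norm_le (((((I0.1.const_mul M).add ((I1.1.const_mul M).const_mul
    4)).add (I2.1.const_mul M)).add (I3.1.const_mul M)).add (I4.1.const_mul M) |>.add
    (I5.1.const_mul M)) (Eventually.of_forall fun w =>
      test_pt hQ hχ hM h0 h1 c1' c2' c3' c4' hP b1 b2 b3 b4 bκ w)).trans (le_of_eq ?_)
  simp only [Pi.add_apply]
  rw [v1, v2, v3, v4, v5]
  simp only [integral_const_mul]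
  rw [I0.2, I1.2, I2.2, I3.2, I4.2, I5.2]

/-- cut-offs of a box -/
lemma box_lim {χ F : R4 → ℝ} {a b : R4} (hI : IntegrableOn (fun y => χ y * F y) (Icc a b))
    {η : ℕ → ℝ → ℝ → ℝ → ℝ} (e1 : ∀ n s t, ContDiff ℝ 1 (η n s t))
    (e2 : ∀ n s t v, 0 ≤ η n s t v ∧ η n s t v ≤ 1) (e3 : ∀ n s t v, v ∉ Icc s t → η n s t v = 0)
    (e4 : ∀ (n : ℕ) (s t v : ℝ), v ∈ Icc (s + 1 / ((n : ℝ) + 1)) (t - 1 / ((n : ℝ) + 1)) →
      η n s t v = 1) :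
    (∀ n w, w ∉ Icc a b → p4 (η n a.1 b.1) (η n a.2.1 b.2.1) (η n a.2.2.1 b.2.2.1)
      (η n a.2.2.2 b.2.2.2) w = 0) ∧
    Tendsto (fun n => ∫ w, χ w * p4 (η n a.1 b.1) (η n a.2.1 b.2.1) (η n a.2.2.1 b.2.2.1)
      (η n a.2.2.2 b.2.2.2) w * F w) atTop (𝓝 (∫ y in Icc a b, χ y * F y)) := by
  set P : ℕ → R4 → ℝ := fun n => p4 (η n a.1 b.1) (η n a.2.1 b.2.1) (η n a.2.2.1 b.2.2.1)
    (η n a.2.2.2 b.2.2.2) with hP
  have P01 : ∀ n w, 0 ≤ P n w ∧ P n w ≤ 1 := by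
    intro n w
    have g1 := e2 n a.1 b.1 w.1
    have g2 := e2 n a.2.1 b.2.1 w.2.1
    have g3 := e2 n a.2.2.1 b.2.2.1 w.2.2.1
    have g4 := e2 n a.2.2.2 b.2.2.2 w.2.2.2
    exact ⟨mul_nonneg g1.1 (mul_nonneg g2.1 (mul_nonneg g3.1 g4.1)),
      mul_le_one₀ g1.2 (mul_nonneg g2.1 (mul_nonneg g3.1 g4.1))
        (mul_le_one₀ g2.2 (mul_nonneg g3.1 g4.1) (mul_le_one₀ g3.2 g4.1 g4.2))⟩
  have Pout : ∀ n w, w ∉ Icc a b → P n w = 0 := by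
    intro n w hw
    by_contra hne
    have g1 := left_ne_zero_of_mul hne
    have g2 := left_ne_zero_of_mul (right_ne_zero_of_mul hne)
    have g3 := left_ne_zero_of_mul (right_ne_zero_of_mul (right_ne_zero_of_mul hne))
    have g4 := right_ne_zero_of_mul (right_ne_zero_of_mul (right_ne_zero_of_mul hne))
    have m1 : w.1 ∈ Icc a.1 b.1 := by by_contra h0; exact g1 (e3 _ _ _ _ h0)
    have m2 : w.2.1 ∈ Icc a.2.1 b.2.1 := by by_contra h0; exact g2 (e3 _ _ _ _ h0)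
    have m3 : w.2.2.1 ∈ Icc a.2.2.1 b.2.2.1 := by by_contra h0; exact g3 (e3 _ _ _ _ h0)
    have m4 : w.2.2.2 ∈ Icc a.2.2.2 b.2.2.2 := by by_contra h0; exact g4 (e3 _ _ _ _ h0)
    exact hw ⟨⟨m1.1, m2.1, m3.1, m4.1⟩, ⟨m1.2, m2.2, m3.2, m4.2⟩⟩
  refine ⟨Pout, ?_⟩
  have Pcd : ∀ n, ContDiff ℝ 1 (P n) := fun n => p4_contDiff (e1 _ _ _) (e1 _ _ _) (e1 _ _ _)
    (e1 _ _ _)
  have g1 : ∀ n, ∫ w, χ w * P n w * F w = ∫ w in Icc a b, P n w * (χ w * F w) := by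
    intro n
    rw [← setIntegral_eq_integral_of_forall_compl_eq_zero (s := Icc a b) (fun w hw => by
      rw [Pout n w hw, mul_zero, zero_mul])]
    refine setIntegral_congr_fun measurableSet_Icc fun w _ => ?_
    ring
  show Tendsto (fun n => ∫ w, χ w * P n w * F w) atTop _
  simp only [g1]
  refine tendsto_integral_of_dominated_convergence (fun y => |χ y * F y|) (fun n => ?_) hI.abs
    (fun n => Eventually.of_forall fun w => ?_) ?_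
  · exact (Pcd n).continuous.aestronglyMeasurable.mul hI.aestronglyMeasurable
  · rw [norm_mul, Real.norm_eq_abs, Real.norm_eq_abs, abs_of_nonneg (P01 n w).1]
    exact mul_le_of_le_one_left (abs_nonneg _) (P01 n w).2
  · -- almost everywhere in the open box
    have n0 : ∀ s : ℝ, ∀ᵐ t : ℝ, t ≠ s := fun s => compl_mem_ae_iff.2 (measure_singleton _)
    have q1 : ∀ s : ℝ, ∀ᵐ w : R4, w.1 ≠ s := fun s =>
      (Measure.quasiMeasurePreserving_fst (μ := (volume : Measure ℝ))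
        (ν := (volume : Measure (ℝ × ℝ × ℝ)))).ae (n0 s)
    have r1 : ∀ {p : ℝ × ℝ × ℝ → Prop}, (∀ᵐ y, p y) → ∀ᵐ w : R4, p w.2 := fun hp =>
      (Measure.quasiMeasurePreserving_snd (μ := (volume : Measure ℝ))
        (ν := (volume : Measure (ℝ × ℝ × ℝ)))).ae hp
    have q2 : ∀ s : ℝ, ∀ᵐ w : R4, w.2.1 ≠ s := fun s => r1
      ((Measure.quasiMeasurePreserving_fst (μ := (volume : Measure ℝ))
        (ν := (volume : Measure (ℝ × ℝ)))).ae (n0 s))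
    have r2 : ∀ {p : ℝ × ℝ → Prop}, (∀ᵐ y, p y) → ∀ᵐ w : R4, p w.2.2 := fun hp => r1
      ((Measure.quasiMeasurePreserving_snd (μ := (volume : Measure ℝ))
        (ν := (volume : Measure (ℝ × ℝ)))).ae hp)
    have q3 : ∀ s : ℝ, ∀ᵐ w : R4, w.2.2.1 ≠ s := fun s => r2
      ((Measure.quasiMeasurePreserving_fst (μ := (volume : Measure ℝ))
        (ν := (volume : Measure ℝ))).ae (n0 s))
    have q4 : ∀ s : ℝ, ∀ᵐ w : R4, w.2.2.2 ≠ s := fun s => r2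
      ((Measure.quasiMeasurePreserving_snd (μ := (volume : Measure ℝ))
        (ν := (volume : Measure ℝ))).ae (n0 s))
    rw [ae_restrict_iff' measurableSet_Icc]
    filter_upwards [q1 a.1, q1 b.1, q2 a.2.1, q2 b.2.1, q3 a.2.2.1, q3 b.2.2.1, q4 a.2.2.2,
      q4 b.2.2.2] with w w1 w2 w3 w4 w5 w6 w7 w8 hw
    obtain ⟨⟨l1, l2, l3, l4⟩, ⟨u1, u2, u3, u4⟩⟩ := hw
    have one : ∀ {s t v : ℝ}, s < v → v < t → ∀ᶠ n : ℕ in atTop, η n s t v = 1 := by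
      intro s t v hs ht
      have g2 : Tendsto (fun n : ℕ => 1 / ((n : ℝ) + 1)) atTop (𝓝 0) :=
        tendsto_one_div_add_atTop_nhds_zero_nat
      filter_upwards [g2.eventually (gt_mem_nhds (show (0:ℝ) < v - s by linarith)),
        g2.eventually (gt_mem_nhds (show (0:ℝ) < t - v by linarith))] with n h3 h4
      exact e4 n s t v ⟨by linarith, by linarith⟩
    have g3 : ∀ᶠ n : ℕ in atTop, P n w = 1 := by
      filter_upwards [one (lt_of_le_of_ne l1 (Ne.symm w1)) (lt_of_le_of_ne u1 w2),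
        one (lt_of_le_of_ne l2 (Ne.symm w3)) (lt_of_le_of_ne u2 w4),
        one (lt_of_le_of_ne l3 (Ne.symm w5)) (lt_of_le_of_ne u3 w6),
        one (lt_of_le_of_ne l4 (Ne.symm w7)) (lt_of_le_of_ne u4 w8)] with n k1 k2 k3 k4
      show η n a.1 b.1 w.1 * (η n a.2.1 b.2.1 w.2.1 * (η n a.2.2.1 b.2.2.1 w.2.2.1 *
        η n a.2.2.2 b.2.2.2 w.2.2.2)) = 1
      rw [k1, k2, k3, k4]
      norm_num
    refine (tendsto_const_nhds (x := χ w * F w)).congr' ?_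
    filter_upwards [g3] with n hn
    rw [hn, one_mul]

lemma cut_le {f J : ℝ → ℝ} {s t s' t' : ℝ} (hJ : J = (Icc s' t').indicator fun _ => (1:ℝ))
    (h2 : ∀ v, 0 ≤ f v ∧ f v ≤ 1) (h3 : ∀ v, v ∉ Icc s t → f v = 0) (hs : s' ≤ s) (ht : t ≤ t')
    (v : ℝ) : |f v| ≤ J v := by
  by_cases hv : v ∈ Icc s t
  · rw [hJ, indicator_of_mem (show v ∈ Icc s' t' from ⟨hs.trans hv.1, hv.2.trans ht⟩),
      abs_of_nonneg (h2 v).1]
    exact (h2 v).2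
  · rw [h3 v hv, abs_zero, hJ]
    exact indicator_nonneg (fun _ _ => zero_le_one) v

/-- **Unbounded integrals over boxes.** -/
theorem big_of_mean {x : R4} {c : ℝ} (hx : cv x = 0) {k : ℝ → ℝ} (hkm : Measurable k)
    (hk : InLp 1 k (-c)) {F : R4 → ℝ} (h : IsBigMean (nullBox x c) F) :
    IsBig (nullBox x c) k F := by
  obtain ⟨χ, hχ, hun⟩ := h
  intro L
  -- bounds of the weight
  obtain ⟨M0, hM0⟩ := (isCompact_closedBall x c).exists_bound_of_continuousOn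
    (hχ.continuous.continuousOn (s := Metric.closedBall x c))
  obtain ⟨M1, hM1⟩ := (isCompact_closedBall x c).exists_bound_of_continuousOn
    ((hχ.continuous_fderiv (by norm_num)).continuousOn (s := Metric.closedBall x c))
  obtain ⟨M, hM00, hχ0, hχ1⟩ : ∃ M : ℝ, 0 ≤ M ∧ (∀ w ∈ nullBox x c, |χ w| ≤ M) ∧
      ∀ w ∈ nullBox x c, ∀ a : R4, ‖a‖ ≤ 1 → |deriv χ w a| ≤ M := by
    refine ⟨|M0| + |M1|, by positivity, fun w hw => ?_, fun w hw a ha => ?_⟩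
    · have h1 := hM0 w (by rw [Metric.mem_closedBall, dist_eq_norm]; exact hw.1.le)
      rw [Real.norm_eq_abs] at h1
      have := le_abs_self M0
      have := abs_nonneg M1
      linarith
    · have h1 := hM1 w (by rw [Metric.mem_closedBall, dist_eq_norm]; exact hw.1.le)
      have h2 : deriv χ w a = fderiv ℝ χ w a :=
        (hχ.differentiable (by norm_num) w).lineDeriv_eq_fderiv
      have h3 := (fderiv ℝ χ w).le_opNorm a
      rw [h2, ← Real.norm_eq_abs]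
      have := le_abs_self M1
      have := abs_nonneg M0
      calc ‖fderiv ℝ χ w a‖ ≤ ‖fderiv ℝ χ w‖ * ‖a‖ := h3
        _ ≤ ‖fderiv ℝ χ w‖ * 1 := mul_le_mul_of_nonneg_left ha (norm_nonneg _)
        _ ≤ |M0| + |M1| := by rw [mul_one]; linarith
  -- the dominating functions
  obtain ⟨κ, hκ⟩ : ∃ κ : ℝ → ℝ, κ = (Ioo (-c) 0).indicator (fun v => 1 + |k v|) := ⟨_, rfl⟩
  obtain ⟨J1, hJ1⟩ : ∃ J : ℝ → ℝ, J = (Icc (x.1 - c) (x.1 + c)).indicator (fun _ => (1:ℝ)) :=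
    ⟨_, rfl⟩
  obtain ⟨J2, hJ2⟩ : ∃ J : ℝ → ℝ, J = (Icc (-c) 0).indicator (fun _ => (1:ℝ)) := ⟨_, rfl⟩
  obtain ⟨J3, hJ3⟩ : ∃ J : ℝ → ℝ, J = (Icc (x.2.2.1 - c) (x.2.2.1 + c)).indicator
    (fun _ => (1:ℝ)) := ⟨_, rfl⟩
  obtain ⟨J4, hJ4⟩ : ∃ J : ℝ → ℝ, J = (Icc (x.2.2.2 - c) (x.2.2.2 + c)).indicator
    (fun _ => (1:ℝ)) := ⟨_, rfl⟩
  have hkI : IntegrableOn k (Ioo (-c) 0) := memLp_one_iff_integrable.1 ⟨hkm.aestronglyMeasurable, hk⟩
  have iJ : ∀ s t : ℝ, Integrable ((Icc s t).indicator (fun _ => (1:ℝ))) := fun s t => by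
    refine (integrable_indicator_iff measurableSet_Icc).2 ?_
    simp
  have i1 : Integrable J1 := hJ1 ▸ iJ _ _
  have i2 : Integrable J2 := hJ2 ▸ iJ _ _
  have i3 : Integrable J3 := hJ3 ▸ iJ _ _
  have i4 : Integrable J4 := hJ4 ▸ iJ _ _
  have iκ : Integrable κ := by
    rw [hκ]
    refine (integrable_indicator_iff measurableSet_Ioo).2 ?_
    have h1 : IntegrableOn (fun _ : ℝ => (1:ℝ)) (Ioo (-c) 0) := by simp
    exact h1.add hkI.abs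
  have hcS : 0 ≤ 2 * cS := by
    unfold cS
    have : 0 ≤ ∫ v, |_root_.deriv P354r.SS v| := integral_nonneg fun _ => abs_nonneg _
    linarith
  have ind : ∀ s t : ℝ, 0 ≤ ∫ v, (Icc s t).indicator (fun _ => (1:ℝ)) v := fun s t =>
    integral_nonneg fun v => indicator_nonneg (fun _ _ => zero_le_one) v
  have pj1 : 0 ≤ ∫ t, J1 t := by rw [hJ1]; exact ind _ _
  have pj2 : 0 ≤ ∫ t, J2 t := by rw [hJ2]; exact ind _ _
  have pj3 : 0 ≤ ∫ t, J3 t := by rw [hJ3]; exact ind _ _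
  have pj4 : 0 ≤ ∫ t, J4 t := by rw [hJ4]; exact ind _ _
  have pjk : 0 ≤ ∫ t, κ t := by
    rw [hκ]
    exact integral_nonneg fun v => indicator_nonneg (fun _ _ => by positivity) v
  obtain ⟨A, hA⟩ : ∃ A : ℝ, A = M * ((∫ t, J1 t) * ((∫ t, κ t) * ((∫ t, J3 t) * ∫ t, J4 t))) +
      4 * (M * ((∫ t, J1 t) * ((∫ t, J2 t) * ((∫ t, J3 t) * ∫ t, J4 t)))) +
      M * ((2 * cS) * ((∫ t, J2 t) * ((∫ t, J3 t) * ∫ t, J4 t))) +
      M * ((∫ t, J1 t) * ((2 * cS) * ((∫ t, J3 t) * ∫ t, J4 t))) +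
      M * ((∫ t, J1 t) * ((∫ t, J2 t) * ((2 * cS) * ∫ t, J4 t))) +
      M * ((∫ t, J1 t) * ((∫ t, J2 t) * ((∫ t, J3 t) * (2 * cS)))) := ⟨_, rfl⟩
  have hA0 : 0 ≤ A := by rw [hA]; positivity
  obtain ⟨a, b, hab, hbig⟩ := hun (|L| * A)
  have hI0 : (∫ y in Icc a b, χ y * F y) ≠ 0 := by
    intro h0
    rw [h0, abs_zero] at hbig
    exact absurd hbig (not_lt.2 (by positivity))
  have hI : IntegrableOn (fun y => χ y * F y) (Icc a b) := by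
    by_contra h1
    exact hI0 (integral_undef h1)
  have hle : a ≤ b := by
    by_contra h1
    rw [Icc_eq_empty h1] at hI0
    simp at hI0
  have ha := hab ⟨le_refl a, hle⟩
  have hb := hab ⟨hle, le_refl b⟩
  have hx0 : x.2.1 = 0 := hx
  obtain ⟨a1, a2, a3, a4⟩ := norm4 ha.1
  obtain ⟨b1, b2, b3, b4⟩ := norm4 hb.1
  have ea : (a - x).1 = a.1 - x.1 ∧ (a - x).2.1 = a.2.1 - x.2.1 ∧
    (a - x).2.2.1 = a.2.2.1 - x.2.2.1 ∧ (a - x).2.2.2 = a.2.2.2 - x.2.2.2 := ⟨rfl, rfl, rfl, rfl⟩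
  have eb : (b - x).1 = b.1 - x.1 ∧ (b - x).2.1 = b.2.1 - x.2.1 ∧
    (b - x).2.2.1 = b.2.2.1 - x.2.2.1 ∧ (b - x).2.2.2 = b.2.2.2 - x.2.2.2 := ⟨rfl, rfl, rfl, rfl⟩
  rw [ea.1, abs_lt] at a1
  rw [ea.2.1, hx0, sub_zero, abs_lt] at a2
  rw [ea.2.2.1, abs_lt] at a3
  rw [ea.2.2.2, abs_lt] at a4
  rw [eb.1, abs_lt] at b1
  rw [eb.2.2.1, abs_lt] at b3
  rw [eb.2.2.2, abs_lt] at b4
  have hb2 : b.2.1 < 0 := hb.2
  -- the cut-offs
  have hcut : ∀ n : ℕ, ∀ s t : ℝ, ∃ ψ : ℝ → ℝ, ContDiff ℝ 1 ψ ∧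
    (∀ v, 0 ≤ ψ v ∧ ψ v ≤ 1) ∧ (∀ v, v ∉ Icc s t → ψ v = 0) ∧
    (∀ v ∈ Icc (s + 1 / ((n : ℝ) + 1)) (t - 1 / ((n : ℝ) + 1)), ψ v = 1) ∧
    Integrable (fun v => |_root_.deriv ψ v|) ∧ ∫ v, |_root_.deriv ψ v| ≤ 2 * cS := fun n s t =>
    exists_cut s t (by positivity)
  choose η e1 e2 e3 e4 e5 e6 using hcut
  obtain ⟨Pout, hlim⟩ := box_lim hI e1 e2 e3 e4
  obtain ⟨n, hn⟩ := (hlim.abs.eventually (lt_mem_nhds hbig)).exists
  have hts : tsupport (fun w => χ w * p4 (η n a.1 b.1) (η n a.2.1 b.2.1) (η n a.2.2.1 b.2.2.1)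
      (η n a.2.2.2 b.2.2.2) w) ⊆ Icc a b := by
    refine closure_minimal ?_ isClosed_Icc
    intro w hw
    by_contra h0
    exact hw (by simp only; rw [Pout n w h0, mul_zero])
  refine ⟨_, hχ.mul (p4_contDiff (e1 n a.1 b.1) (e1 n a.2.1 b.2.1) (e1 n a.2.2.1 b.2.2.1)
    (e1 n a.2.2.2 b.2.2.2)), hts.trans hab, lt_of_le_of_lt ?_ hn⟩
  have key := test_bd (isClosed_Icc (a := a) (b := b)) hχ hM00 (fun w hw => hχ0 w (hab hw))
    (fun w hw => hχ1 w (hab hw)) (e1 n a.1 b.1) (e1 n a.2.1 b.2.1) (e1 n a.2.2.1 b.2.2.1)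
    (e1 n a.2.2.2 b.2.2.2) (Pout n)
    (cut_le hJ1 (e2 n a.1 b.1) (e3 n a.1 b.1) (by linarith [a1.1]) (by linarith [b1.2]))
    (cut_le hJ2 (e2 n a.2.1 b.2.1) (e3 n a.2.1 b.2.1) a2.1.le hb2.le)
    (cut_le hJ3 (e2 n a.2.2.1 b.2.2.1) (e3 n a.2.2.1 b.2.2.1) (by linarith [a3.1])
      (by linarith [b3.2]))
    (cut_le hJ4 (e2 n a.2.2.2 b.2.2.2) (e3 n a.2.2.2 b.2.2.2) (by linarith [a4.1])
      (by linarith [b4.2])) (κ := κ) (k := k) (fun v => ?_) i1 i2 i3 i4 iκ (e5 _ _ _) (e5 _ _ _)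
    (e5 _ _ _) (e5 _ _ _)
  · have key2 : _ ≤ A := key.trans (by
      rw [hA]
      have f1 := e6 n a.1 b.1
      have f2 := e6 n a.2.1 b.2.1
      have f3 := e6 n a.2.2.1 b.2.2.1
      have f4 := e6 n a.2.2.2 b.2.2.2
      clear hlim hn key hcS hA0 hA hts Pout
      gcongr)
    refine (le_abs_self _).trans ?_
    rw [abs_mul]
    exact mul_le_mul_of_nonneg_left key2 (abs_nonneg L)
  · by_cases hv : v ∈ Icc a.2.1 b.2.1
    · rw [hκ, indicator_of_mem (show v ∈ Ioo (-c) 0 from ⟨by linarith [hv.1, a2.1], by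
        linarith [hv.2]⟩), abs_mul, abs_of_nonneg (e2 n a.2.1 b.2.1 v).1]
      have g6 : |1 + k v| ≤ 1 + |k v| := by
        have := abs_add_le 1 (k v)
        rwa [abs_one] at this
      have g8 : 0 ≤ 1 + |k v| := by positivity
      calc |1 + k v| * η n a.2.1 b.2.1 v ≤ (1 + |k v|) * 1 :=
            mul_le_mul g6 (e2 n a.2.1 b.2.1 v).2 (e2 n a.2.1 b.2.1 v).1 g8
        _ = _ := mul_one _
    · rw [e3 n _ _ _ hv, mul_zero, abs_zero, hκ]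
      exact indicator_nonneg (fun _ _ => by positivity) v

end Vale.Agent.P354L
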