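import Vale.Agent.P354.H251.DefsW

open scoped ContDiff
open MeasureTheory Set Filter Topology

namespace Vale.Agent.P354L

open Vale.Agent.P354n (R4 Spc IsSpacetime IsSmooth IsDNBox EndsAt nullBox cornerBox IsFutureCurve
  IsConn Riem IsFar deriv du dv cu cv c1 c2)

/-- The coordinate vectors of theta1 and theta2. -/
def d1 : R4 := (0, 0, 1, 0)
def d2 : R4 := (0, 0, 0, 1)

/-- The function f is locally Lipschitz on D. -/
def IsLip (f : R4 → ℝ) (D : Set R4) : Prop := LocallyLipschitzOn D f

/-- The vector with components a in the frame du, dv + s1 d1 + s2 d2, d1, d2. -/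
def fr (C : ℕ → R4 → ℝ) (x a : R4) : R4 := (cu a, cv a, c1 a + C 4 x * cv a, c2 a + C 5 x * cv a)

/-- The component of the curvature of M, in the chart e, on the vectors of the frame with the
constant components p, q, s, t. -/
noncomputable def Rc (M : Spc) (e : M.Chart) (C : ℕ → R4 → ℝ) (G : R4 → R4 → R4 → R4)
    (p q s t y : R4) : ℝ :=
  Riem (M.g e) G y (fr C y p) (fr C y q) (fr C y s) (fr C y t)

/-- The integrals of phi F, for C^1 functions phi supported in D, are not bounded by a multiple
of the integral of (1 + k(v)) |phi| + |dphi|. -/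
def IsBig (D : Set R4) (k : ℝ → ℝ) (F : R4 → ℝ) : Prop :=
  ∀ L : ℝ, ∃ φ : R4 → ℝ, ContDiff ℝ 1 φ ∧ tsupport φ ⊆ D ∧
    L * ∫ x, ((1 + k (cv x)) * |φ x| + |deriv φ x du| + |deriv φ x dv| + |deriv φ x d1| +
      |deriv φ x d2|) < |∫ x, φ x * F x|

/-- The integrals of chi F over the boxes contained in D, that is, over the products Icc a b of
four compact intervals, are not bounded, for some C^1 function chi. -/
def IsBigMean (D : Set R4) (F : R4 → ℝ) : Prop :=
  ∃ χ : R4 → ℝ, ContDiff ℝ 1 χ ∧ ∀ L, ∃ a b, Icc a b ⊆ D ∧ L < |∫ x in Icc a b, χ x * F x|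

/-- The curve a ends at a point z of a null hypersurface v = 0 to which the metric extends
continuously, its v derivative being bounded by an integrable function k(v), but near every point
of which some component of the curvature is large: either its integrals over boxes are unbounded,
or, more generally, it is not bounded, as a distribution, by (1 + k(v)) |phi| + |dphi|. -/
def EndsAtFront (M : Spc) (a : ℝ → M.pt) : Prop :=
  ∃ e C z r K k G, IsDNBox M e C (nullBox z r) r K k (fun _ => K) ∧ cv z = 0 ∧
    EndsAt a e (nullBox z r) z ∧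
    (∀ x ∈ nullBox z r, C 6 x = 0 ∧ C 7 x = 0 ∧ IsConn (M.g e) G x) ∧
    ∀ x, cv x = 0 → ‖x - z‖ < r → ∀ c > 0, ∃ p q s t,
      IsBigMean (nullBox x c) (Rc M e C G p q s t) ∨ IsBig (nullBox x c) k (Rc M e C G p q s t)

/-- The curve a ends at a point z of the sphere u = v = 0 where the null hypersurfaces u = 0 and
v = 0 meet; curves that end elsewhere on these end as above. -/
def EndsAtCorner (M : Spc) (a : ℝ → M.pt) : Prop :=
  ∃ e C z r K k, IsDNBox M e C (cornerBox z r) r K k k ∧ cu z = 0 ∧ cv z = 0 ∧
    EndsAt a e (cornerBox z r) z ∧ ∀ b, IsFutureCurve M 0 (Ico 0 1) b → ∀ y,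
      EndsAt b e (cornerBox z r) y → ‖y - z‖ < r → cu y * cv y = 0 → cu y + cv y < 0 →
      EndsAtFront M b

/-- The three kinds of ends of future timelike curves. -/
def Ends (M : Spc) (a : ℝ → M.pt) : Prop :=
  EndsAtFront M a ∨ EndsAtCorner M a ∨ IsFar M a

/-- Every future timelike curve without future end point has one of these kinds of ends. -/
def AllEnd (M : Spc) : Prop :=
  ∀ a, IsFutureCurve M 0 (Ico 0 1) a → (∀ x, ¬ Tendsto a (𝓝[<] 1) (𝓝 x)) → Ends M a

end Vale.Agent.P354L
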