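import Vale.Agent.P354.H251.WvG

set_option linter.unusedSectionVars false

open scoped ContDiff
open MeasureTheory Set Filter Topology

namespace Vale.Agent.P354v.G.N

open Vale.Agent.P354n (IsSpacetime IsFutureExtension InLp isFutureExtension_dn Dn wave coef IsData)

/-- essentially bounded continuous functions are bounded -/
lemma bd_of_inLp {f : ℝ → ℝ} (hc : ContinuousOn f (Ioo (-1) 0)) (hin : InLp ⊤ f (-(1 / 2))) :
    ∃ M, 0 ≤ M ∧ ∀ v ∈ Ioo (-(1 / 2) : ℝ) 0, |f v| ≤ M := by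
  have h1 : eLpNorm f ⊤ (volume.restrict (Ioo (-(1 / 2)) 0)) < ⊤ := hin
  set M : ℝ := (eLpNorm f ⊤ (volume.restrict (Ioo (-(1 / 2)) 0))).toReal with hM
  refine ⟨M, ENNReal.toReal_nonneg, fun v hv => ?_⟩
  by_contra hcon
  push Not at hcon
  have hc' : ContinuousOn f (Ioo (-(1 / 2)) 0) := hc.mono (Ioo_subset_Ioo_left (by norm_num))
  have hS : IsOpen (Ioo (-(1 / 2) : ℝ) 0 ∩ f ⁻¹' {y | M < |y|}) :=
    hc'.isOpen_inter_preimage isOpen_Ioo (isOpen_lt continuous_const continuous_abs)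
  have hpos := hS.measure_pos volume ⟨v, hv, hcon⟩
  have hae : ∀ᵐ x ∂(volume.restrict (Ioo (-(1 / 2) : ℝ) 0)), ‖f x‖ₑ ≤
      eLpNormEssSup f (volume.restrict (Ioo (-(1 / 2)) 0)) := enorm_ae_le_eLpNormEssSup f _
  rw [ae_restrict_iff' measurableSet_Ioo] at hae
  refine hpos.ne' (measure_mono_null ?_ (ae_iff.1 hae))
  rintro x ⟨hx, hx2⟩ hcon2
  have h2 := hcon2 hx
  rw [← eLpNorm_exponent_top] at h2
  have h3 : ‖f x‖ ≤ M := by
    rw [hM, ← toReal_enorm (f x)]
    exact ENNReal.toReal_mono h1.ne h2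
  have h4 : M < |f x| := hx2
  rw [Real.norm_eq_abs] at h3
  exact absurd h3 (not_le.2 h4)

section

variable {f : ℝ → ℝ} (hf : IsData f)
include hf

lemma Wt_bdd (hin : InLp ⊤ f (-(1 / 2))) {b : ℝ} (hb : -1 < b) :
    ∃ C, 0 ≤ C ∧ ∀ v > b, Wt f v ≤ C := by
  obtain ⟨M, hM0, hM⟩ := bd_of_inLp (cf hf) hin
  set c := min b (-(3 / 4)) with hc
  have hc1 : -1 < c := lt_min hb (by norm_num)
  have hc2 : c ≤ -(3 / 4) := min_le_right _ _
  have hsub : Icc c (-(1 / 2)) ⊆ Ioo (-1 : ℝ) 0 := fun v hv =>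
    ⟨hc1.trans_le hv.1, by linarith [hv.2]⟩
  obtain ⟨C1, hC1⟩ := isCompact_Icc.exists_bound_of_continuousOn ((cf hf).mono hsub)
  obtain ⟨C2, hC2⟩ := isCompact_Icc.exists_bound_of_continuousOn ((d1_cont hf).mono hsub)
  have hK := KK1_ge hf
  have hC10 : 0 ≤ C1 := (norm_nonneg _).trans (hC1 c ⟨le_rfl, by linarith⟩)
  have hC20 : 0 ≤ C2 := (norm_nonneg _).trans (hC2 c ⟨le_rfl, by linarith⟩)
  refine ⟨2 * KK1 f * (C2 + C1 + (M ^ 2 + M)), by positivity, fun v hv => ?_⟩
  unfold Wt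
  by_cases h : v ∈ Ioo (-1 : ℝ) 0
  · rw [indicator_of_mem h]
    refine mul_le_mul_of_nonneg_left ?_ (by linarith)
    by_cases h1 : v ≤ -(1 / 2)
    · have m1 := hC1 v ⟨(min_le_left _ _).trans hv.le, h1⟩
      have m2 := hC2 v ⟨(min_le_left _ _).trans hv.le, h1⟩
      rw [Real.norm_eq_abs] at m1 m2
      have : 0 ≤ M ^ 2 + M := by positivity
      linarith
    · push Not at h1
      have m1 := hM v ⟨h1, h.2⟩
      have m2 : |d1 f v| ≤ M ^ 2 := by
        have m3 := intervalIntegral.norm_integral_le_of_norm_le_const (a := -(1 / 2)) (b := v)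
          (f := fun t => f t ^ 2) (C := M ^ 2) (fun t ht => by
            rw [uIoc_of_le h1.le] at ht
            have m4 := hM t ⟨ht.1, ht.2.trans_lt h.2⟩
            rw [Real.norm_eq_abs, abs_pow]
            gcongr)
        rw [Real.norm_eq_abs, abs_of_nonneg (show 0 ≤ v - -(1 / 2) by linarith)] at m3
        refine m3.trans ?_
        have m5 : v - -(1 / 2) ≤ 1 := by linarith [h.2]
        nlinarith [sq_nonneg M]
      linarith
  · rw [indicator_of_notMem h]
    positivity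

lemma coef_dint {e : ℝ} (he : |e| ≤ 1) : Integrable (_root_.deriv (coef e f)) := by
  refine (Wt_int hf).mono' (measurable_deriv _).aestronglyMeasurable ?_
  filter_upwards [ae1, ae0] with v h1 h0
  rw [Real.norm_eq_abs]
  exact coef_le hf he h1 h0

lemma coef_lip {e : ℝ} (he : |e| ≤ 1) (hin : InLp ⊤ f (-(1 / 2))) {b : ℝ} (hb : -1 < b) :
    ∃ C, 0 ≤ C ∧ ∀ x > b, ∀ y > b, |coef e f y - coef e f x| ≤ C * |y - x| := by
  obtain ⟨C, hC0, hC⟩ := Wt_bdd hf hin hb
  refine ⟨C, hC0, fun x hx y hy => ?_⟩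
  have h1 := integral_eq_of_hasDerivAt_off_countable (coef e f) (_root_.deriv (coef e f))
    (a := x) (b := y) (s := {0}) (countable_singleton 0) (coef_cont hf e).continuousOn
    (fun v hv => (coef_hd hf e (by
      have h2 : min x y < v := hv.1.1
      have h3 : b < v := (lt_min hx hy).trans h2
      linarith) hv.2).hasDerivAt) (coef_dint hf he).intervalIntegrable
  rw [← h1, ← Real.norm_eq_abs]
  refine intervalIntegral.norm_integral_le_of_norm_le_const_ae ?_
  filter_upwards [ae0] with v h0 hv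
  rw [Real.norm_eq_abs]
  have h3 : b < v := by
    have h4 : min x y < v := hv.1
    exact (lt_min hx hy).trans h4
  exact (coef_le hf he (by linarith) h0).trans (hC v h3)

lemma gg_lip (hin : InLp ⊤ f (-(1 / 2))) (a b : P354p.R4) :
    LocallyLipschitzOn (P354v.Db 1) (fun y => @gg (pg hf) y a b) := by
  intro x hx
  have hx1 : -1 < x.2.1 := hx.1
  set b0 := (-1 + x.2.1) / 2 with hb0
  have hb1 : -1 < b0 := by linarith
  have hb2 : b0 < x.2.1 := by linarith
  obtain ⟨C1, k1, k2⟩ := coef_lip hf (e := 1) (by simp) hin hb1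
  obtain ⟨C2, k3, k4⟩ := coef_lip hf (e := -1) (by simp) hin hb1
  set α := P354p.c1 a * P354p.c1 b with hα
  set β := P354p.c2 a * P354p.c2 b with hβ
  refine ⟨⟨C1 * |α| + C2 * |β|, by positivity⟩, {y | b0 < y.2.1}, ?_, ?_⟩
  · refine mem_nhdsWithin_of_mem_nhds (IsOpen.mem_nhds ?_ hb2)
    exact isOpen_lt continuous_const (by fun_prop)
  · refine LipschitzOnWith.of_dist_le_mul fun y hy z hz => ?_
    rw [Real.dist_eq, dist_eq_norm]
    have e1 : @gg (pg hf) y a b - @gg (pg hf) z a b =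
        (coef 1 f y.2.1 - coef 1 f z.2.1) * α + (coef (-1) f y.2.1 - coef (-1) f z.2.1) * β := by
      show (coef 1 f y.2.1 * α + coef (-1) f y.2.1 * β - _) -
        (coef 1 f z.2.1 * α + coef (-1) f z.2.1 * β - _) = _
      ring
    have hn : |y.2.1 - z.2.1| ≤ ‖y - z‖ := (norm_fst_le (y - z).2).trans (norm_snd_le (y - z))
    have q1 := abs_add_le ((coef 1 f y.2.1 - coef 1 f z.2.1) * α)
      ((coef (-1) f y.2.1 - coef (-1) f z.2.1) * β)
    rw [abs_mul _ α, abs_mul _ β] at q1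
    have m1 := mul_le_mul_of_nonneg_right ((k2 _ hz _ hy).trans
      (mul_le_mul_of_nonneg_left hn k1)) (abs_nonneg α)
    have m2 := mul_le_mul_of_nonneg_right ((k4 _ hz _ hy).trans
      (mul_le_mul_of_nonneg_left hn k3)) (abs_nonneg β)
    show |@gg (pg hf) y a b - @gg (pg hf) z a b| ≤ (C1 * |α| + C2 * |β|) * ‖y - z‖
    rw [e1]
    linarith

/-- **The Lipschitz extension** of the plane wave of a bounded function. -/
theorem ext_lip (hin : InLp ⊤ f (-(1 / 2))) : ∃ N ι c, ConnectedSpace N.pt ∧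
    IsFutureExtension (fun f D => LocallyLipschitzOn D f) (wave f) N ι c := by
  have E := @extension (pg hf) 1
    (fun b _ => deriv_mem hf (by simp) (memLp_one_iff_integrable.2 (Wt_int hf).integrableOn))
    (fun b _ => deriv_mem hf (by simp) (memLp_one_iff_integrable.2 (Wt_int hf).integrableOn))
  have E' : P354p.IsFutureExtension (fun f D => LocallyLipschitzOn D f) (@MM (pg hf))
      (@VV (pg hf) 1) (@io (pg hf)) (@c0 (pg hf)) :=
    { spacetime := @spacetime 1 (pg hf) _ fun a b => gg_lip hf hin a b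
      embedding := E.embedding
      isometry := E.isometry
      proper := E.proper
      curve := E.curve
      curve_mem := E.curve_mem
      curve_end := E.curve_end }
  exact ⟨Dn (@VV (pg hf) 1), @io (pg hf), @c0 (pg hf), conn_pb 1, isFutureExtension_dn E'⟩

end

end Vale.Agent.P354v.G.N
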