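import Vale.Agent.P354L.Wave2
import Vale.Agent.P354L.Lip298

set_option linter.unusedSectionVars false

open scoped ContDiff
open MeasureTheory Set Filter Topology

namespace Vale.Agent.P354L

open Vale.Agent.P354n (R4 Spc Dn InLp IsData wave IsC0W1 IsFutureExtension IsMax rev
  isFutureExtension_dn)
open Vale.Agent.P354v.G.N (bd_of_inLp wave_inext pg conn_pb deriv_mem Wt_mem)

/-- a function with logarithmic singularities at the end points -/
noncomputable def lf (v : ℝ) : ℝ := Real.log (-v * (1 + v))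

lemma lf_pos {v : ℝ} (hv : v ∈ Ioo (-1 : ℝ) 0) : 0 < -v * (1 + v) ∧ -v * (1 + v) ≤ 1 := by
  have h1 : 0 < -v := by linarith [hv.2]
  have h2 : 0 < 1 + v := by linarith [hv.1]
  refine ⟨mul_pos h1 h2, ?_⟩
  nlinarith

lemma lf_symm : (fun v => lf (-1 - v)) = lf := by
  funext v
  unfold lf
  congr 1
  ring

lemma lf_smooth : ContDiffOn ℝ ∞ lf (Ioo (-1) 0) := by
  unfold lf
  refine ContDiffOn.log (by fun_prop) fun v hv => (lf_pos hv).1.ne'

/-- the singularity is weaker than any power -/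
lemma lf_le {t : ℝ} (ht : 0 < t) {v : ℝ} (hv : v ∈ Ioo (-1 : ℝ) 0) :
    |lf v| ≤ 1 / t * (-v * (1 + v)) ^ (-t) := by
  obtain ⟨h1, h2⟩ := lf_pos hv
  have h3 := (Real.abs_log_mul_self_rpow_lt _ t h1 h2 ht).le
  rw [abs_mul, abs_of_nonneg (Real.rpow_nonneg h1.le t)] at h3
  have h4 : 0 < (-v * (1 + v)) ^ t := Real.rpow_pos_of_pos h1 t
  unfold lf
  rw [Real.rpow_neg h1.le, ← div_eq_mul_inv, le_div_iff₀ h4]
  exact h3

/-- integrability of powers -/
lemma pow_int {s : ℝ} (hs : s ∈ Ioo (0 : ℝ) 1) :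
    IntegrableOn (fun v : ℝ => (-v * (1 + v)) ^ (-s)) (Ioo (-1) 0) := by
  have h1 : IntegrableOn (fun v : ℝ => 2 ^ s * ((-v) ^ (-s) + (1 + v) ^ (-s))) (Ioo (-1) 0) := by
    refine Integrable.const_mul (Integrable.add ?_ ?_) _
    · have h2 : IntervalIntegrable (fun x : ℝ => x ^ (-s)) volume 0 1 :=
        intervalIntegral.intervalIntegrable_rpow' (by linarith [hs.2])
      have h3 := h2.comp_sub_left 0
      simp only [zero_sub, sub_zero] at h3
      have h4 := h3.symm
      rwa [intervalIntegrable_iff_integrableOn_Ioo_of_le (by norm_num)] at h4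
    · have h2 : IntervalIntegrable (fun x : ℝ => x ^ (-s)) volume 0 1 :=
        intervalIntegral.intervalIntegrable_rpow' (by linarith [hs.2])
      have h3 := h2.comp_add_left 1
      simp only [zero_sub, sub_self] at h3
      rwa [intervalIntegrable_iff_integrableOn_Ioo_of_le (by norm_num)] at h3
  refine Integrable.mono' h1 ?_ ?_
  · have hc : ContinuousOn (fun v : ℝ => (-v * (1 + v)) ^ (-s)) (Ioo (-1) 0) := by
      refine ContinuousOn.rpow_const (by fun_prop) fun v hv => Or.inl (lf_pos hv).1.ne'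
    exact hc.aestronglyMeasurable measurableSet_Ioo
  · rw [ae_restrict_iff' measurableSet_Ioo]
    refine Eventually.of_forall fun v hv => ?_
    obtain ⟨h3, -⟩ := lf_pos hv
    have h4 : 0 < -v := by linarith [hv.2]
    have h5 : 0 < 1 + v := by linarith [hv.1]
    rw [Real.norm_eq_abs, abs_of_nonneg (Real.rpow_nonneg h3.le _)]
    have e : ∀ y : ℝ, 0 < y → (y / 2) ^ (-s) = 2 ^ s * y ^ (-s) := by
      intro y hy
      rw [Real.div_rpow hy.le (by norm_num), Real.rpow_neg (by norm_num : (0:ℝ) ≤ 2), div_inv_eq_mul]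
      ring
    have p1 : 0 ≤ (2:ℝ) ^ s * (-v) ^ (-s) := by positivity
    have p2 : 0 ≤ (2:ℝ) ^ s * (1 + v) ^ (-s) := by positivity
    rcases le_total v (-(1 / 2)) with h | h
    · have h6 : (1 + v) / 2 ≤ -v * (1 + v) := by nlinarith
      have h7 := Real.rpow_le_rpow_of_nonpos (by linarith) h6 (show -s ≤ 0 by linarith [hs.1])
      rw [e _ h5] at h7
      linarith
    · have h6 : -v / 2 ≤ -v * (1 + v) := by nlinarith
      have h7 := Real.rpow_le_rpow_of_nonpos (by linarith) h6 (show -s ≤ 0 by linarith [hs.1])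
      rw [e _ h4] at h7
      linarith

lemma lf_int : IntegrableOn lf (Ioo (-1) 0) := by
  refine Integrable.mono' ((pow_int (s := 1 / 2) (by constructor <;> norm_num)).const_mul (1 / (1 / 2)))
    (lf_smooth.continuousOn.aestronglyMeasurable measurableSet_Ioo) ?_
  rw [ae_restrict_iff' measurableSet_Ioo]
  refine Eventually.of_forall fun v hv => ?_
  rw [Real.norm_eq_abs]
  exact lf_le (by norm_num) hv

lemma lf_data : IsData lf := by
  refine ⟨lf_smooth, lf_int, ?_⟩
  refine Integrable.mono' (g := fun _ => (4:ℝ)) (by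
    have : IntegrableOn (fun _ : ℝ => (4:ℝ)) (Ioo (-1) 0) := by simp
    exact this) ?_ ?_
  · have hc : ContinuousOn (fun v => v * (1 + v) * lf v ^ 2) (Ioo (-1) 0) :=
      (by fun_prop : Continuous fun v : ℝ => v * (1 + v)).continuousOn.mul
        (lf_smooth.continuousOn.pow 2)
    exact hc.aestronglyMeasurable measurableSet_Ioo
  · rw [ae_restrict_iff' measurableSet_Ioo]
    refine Eventually.of_forall fun v hv => ?_
    obtain ⟨h1, h2⟩ := lf_pos hv
    have h3 := lf_le (t := 1 / 2) (by norm_num) hv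
    have h4 : |lf v| ^ 2 ≤ (1 / (1 / 2) * (-v * (1 + v)) ^ (-(1 / 2 : ℝ))) ^ 2 := by gcongr
    have h5 : ((-v * (1 + v)) ^ (-(1 / 2 : ℝ))) ^ 2 = (-v * (1 + v))⁻¹ := by
      rw [← Real.rpow_natCast, ← Real.rpow_mul h1.le,
        show (-(1 / 2 : ℝ)) * ((2:ℕ):ℝ) = -1 by norm_num, Real.rpow_neg_one]
    rw [mul_pow, h5, sq_abs] at h4
    rw [Real.norm_eq_abs, abs_mul, abs_of_nonneg (sq_nonneg (lf v)),
      show v * (1 + v) = -(-v * (1 + v)) by ring, abs_neg, abs_of_pos h1]
    calc -v * (1 + v) * lf v ^ 2 ≤ -v * (1 + v) * ((1 / (1 / 2)) ^ 2 * (-v * (1 + v))⁻¹) := by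
          gcongr
      _ = 4 * ((-v * (1 + v)) * (-v * (1 + v))⁻¹) := by ring
      _ = 4 := by rw [mul_inv_cancel₀ h1.ne', mul_one]

lemma lf_not : ¬ InLp ⊤ lf (-(1 / 2)) := by
  intro h
  obtain ⟨M, hM0, hM⟩ := bd_of_inLp lf_smooth.continuousOn h
  set v : ℝ := -(Real.exp (-(M + 1)) / 2) with hv
  have he : 0 < Real.exp (-(M + 1)) := Real.exp_pos _
  have he1 : Real.exp (-(M + 1)) < 1 := by
    rw [Real.exp_lt_one_iff]
    linarith
  have hvm : v ∈ Ioo (-(1 / 2) : ℝ) 0 := ⟨by linarith, by linarith⟩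
  obtain ⟨h1, h2⟩ := lf_pos (v := v) ⟨by linarith [hvm.1], hvm.2⟩
  have h3 : -v * (1 + v) < Real.exp (-(M + 1)) := by
    have : -v = Real.exp (-(M + 1)) / 2 := by rw [hv]; ring
    nlinarith [hvm.2]
  have h4 : lf v < -(M + 1) := by
    unfold lf
    rw [Real.log_lt_iff_lt_exp h1]
    exact h3
  have h5 := hM v hvm
  have h6 := (abs_le.1 h5).1
  linarith

lemma lf_in {q : ENNReal} (hq : 2 ≤ q) (hqt : q < ⊤) : InLp q lf (-(1 / 2)) := by
  have hq0 : q ≠ 0 := fun h => by rw [h] at hq; simp at hq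
  have hr : 2 ≤ q.toReal := by
    have := ENNReal.toReal_mono hqt.ne hq
    simpa using this
  have hr0 : 0 < q.toReal := by linarith
  set t : ℝ := 1 / (2 * q.toReal) with ht
  have ht0 : 0 < t := by positivity
  have hm : MemLp lf q (volume.restrict (Ioo (-1) 0)) := by
    have hmeas : AEStronglyMeasurable lf (volume.restrict (Ioo (-1) 0)) :=
      lf_smooth.continuousOn.aestronglyMeasurable measurableSet_Ioo
    rw [← integrable_norm_rpow_iff hmeas hq0 hqt.ne]
    refine Integrable.mono' ((pow_int (s := 1 / 2) (by constructor <;> norm_num)).const_mul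
      ((1 / t) ^ q.toReal)) (hmeas.norm.aemeasurable.pow_const _).aestronglyMeasurable ?_
    rw [ae_restrict_iff' measurableSet_Ioo]
    refine Eventually.of_forall fun v hv => ?_
    obtain ⟨h1, h2⟩ := lf_pos hv
    rw [Real.norm_eq_abs, abs_of_nonneg (by positivity), Real.norm_eq_abs]
    have h3 := Real.rpow_le_rpow (abs_nonneg _) (lf_le ht0 hv) hr0.le
    refine h3.trans (le_of_eq ?_)
    rw [Real.mul_rpow (by positivity) (Real.rpow_nonneg h1.le _), ← Real.rpow_mul h1.le]
    congr 2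
    rw [ht]
    field_simp
  exact (hm.mono_measure (Measure.restrict_mono (Ioo_subset_Ioo_left (by norm_num)) le_rfl)).2

lemma c0w1_mono {q q' : ENNReal} (h : q ≤ q') {f : R4 → ℝ} {D : Set R4} (hf : IsC0W1 q' f D) :
    IsC0W1 q f D := by
  refine ⟨hf.1, fun a => ?_⟩
  obtain ⟨g, k1, k2⟩ := hf.2 a
  refine ⟨g, fun Q hQ hQc => ?_, k2⟩
  have hfin : IsFiniteMeasure (volume.restrict Q) := ⟨by
    rw [Measure.restrict_apply MeasurableSet.univ, univ_inter]
    exact hQc.measure_lt_top⟩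
  exact (k1 Q hQ hQc).mono_exponent h

lemma ext_mono {q q' : ENNReal} (h : q ≤ q') {M N : Spc} {ι : M.pt → N.pt} {c : ℝ → N.pt}
    (hE : IsFutureExtension (IsC0W1 q') M N ι c) : IsFutureExtension (IsC0W1 q) M N ι c :=
  { spacetime :=
      { tensor := hE.spacetime.tensor
        signature := hE.spacetime.signature
        timelike := hE.spacetime.timelike
        continuous := hE.spacetime.continuous
        regular := fun e a b => c0w1_mono h (hE.spacetime.regular e a b) }
    embedding := hE.embedding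
    isometry := hE.isometry
    proper := hE.proper
    curve := hE.curve
    curve_mem := hE.curve_mem
    curve_end := hE.curve_end }

theorem ext_fix {f : ℝ → ℝ} (hf : IsData f) {p : ENNReal} (hp : 2 ≤ p)
    (hin : InLp p f (-(1 / 2))) :
    IsFutureExtension (IsC0W1 p) (wave f) (Dn (@P354v.G.VV (pg hf) 1)) (@P354v.G.io (pg hf))
      (@P354v.G.c0 (pg hf)) :=
  isFutureExtension_dn
    (@P354v.G.extension (pg hf) p (fun _ hb => deriv_mem hf (by simp) (Wt_mem hf hp hin hb))
      fun _ hb => deriv_mem hf (by simp) (Wt_mem hf hp hin hb))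

/-- **Sharpness.** -/
theorem sharp : ∃ f, IsData f ∧ AllEnd (wave f) ∧ AllEnd (rev (wave f)) ∧ IsMax (wave f) ∧
    ∃ N ι c, ConnectedSpace N.pt ∧ ∀ q < ⊤, IsFutureExtension (IsC0W1 q) (wave f) N ι c := by
  have h1 := lf_not
  have h2 : ¬ InLp ⊤ (fun v => lf (-1 - v)) (-(1 / 2)) := by rw [lf_symm]; exact h1
  refine ⟨lf, lf_data, future_end lf_data h1, past_end lf_data h2,
    (wave_inext lf_data le_top h1 h2).2, Dn (@P354v.G.VV (pg lf_data) 1),
    @P354v.G.io (pg lf_data), @P354v.G.c0 (pg lf_data), conn_pb 1, fun q hq => ?_⟩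
  exact ext_mono (le_max_left q 2) (ext_fix lf_data (le_max_right q 2)
    (lf_in (le_max_right q 2) (max_lt hq (by simp))))

end Vale.Agent.P354L
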