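import Vale.Agent.P354L.Wave2
import Vale.Agent.P354.H251.Gen

set_option linter.unusedSectionVars false

open scoped ContDiff
open MeasureTheory Set Filter Topology

namespace Vale.Agent.P354L

open Vale.Agent.P354n (R4 InLp IsData wave IsC0W1 IsMax rev IsInext)
open Vale.Agent.P354v.G (cf)
open Vale.Agent.P354v.G.N (meagre_of wave_inext wave_spacetime)

variable {E : Type*} [AddCommGroup E] [Module ℝ E] [TopologicalSpace E] [ContinuousAdd E]
  [ContinuousSMul ℝ E] [FirstCountableTopology E]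

/-- **Generic blow up of the curvature and inextendibility.** -/
theorem generic {Reg : (R4 → ℝ) → Set R4 → Prop} (hR : Rg Reg) (T : E →ₗ[ℝ] (ℝ → ℝ))
    (hT : ∀ x, IsData (T x)) (hc : ∀ v ∈ Ioo (-1 : ℝ) 0, Continuous fun x => T x v) {x1 x2 : E}
    (h1 : ¬ InLp ⊤ (T x1) (-(1 / 2))) (h2 : ¬ InLp ⊤ (fun v => T x2 (-1 - v)) (-(1 / 2))) :
    IsMeagre {x | ¬ (AllEnd (wave (T x)) ∧ AllEnd (rev (wave (T x))) ∧ IsMax (wave (T x)) ∧
      IsInext Reg (wave (T x)))} := by
  have hJ : Ioo (-(1 / 2) : ℝ) 0 ⊆ Ioo (-1) 0 := Ioo_subset_Ioo_left (by norm_num)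
  have hr : ∀ {v : ℝ}, v ∈ Ioo (-1 : ℝ) 0 → -1 - v ∈ Ioo (-1 : ℝ) 0 := fun hv =>
    ⟨by linarith [hv.2], by linarith [hv.1]⟩
  have m1 := meagre_of T (p := ⊤) (measurableSet_Ioo (a := (-(1 / 2) : ℝ)) (b := 0))
    (fun v hv => hc v (hJ hv))
    (fun x => ((cf (hT x)).mono hJ).aestronglyMeasurable measurableSet_Ioo) h1
  let T' : E →ₗ[ℝ] (ℝ → ℝ) :=
    { toFun := fun x v => T x (-1 - v)
      map_add' := fun x y => by funext v; rw [map_add]; rfl
      map_smul' := fun t x => by funext v; rw [map_smul]; rfl }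
  have m2 := meagre_of T' (p := ⊤) (measurableSet_Ioo (a := (-(1 / 2) : ℝ)) (b := 0))
    (fun v hv => hc (-1 - v) (hr (hJ hv)))
    (fun x => (((cf (hT x)).comp (by fun_prop) fun v hv => hr hv).mono hJ).aestronglyMeasurable
      measurableSet_Ioo) h2
  refine (m1.union m2).mono fun x hx => ?_
  by_contra hcon
  rw [mem_union, not_or] at hcon
  have e1 := future_end (hT x) hcon.1
  have e2 := past_end (hT x) hcon.2
  have h3 := wave_inext (hT x) le_top hcon.1 hcon.2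
  have hne : Nonempty (wave (T x)).pt := ⟨P354n.pb 0⟩
  exact hx ⟨e1, e2, h3.2, inext2 hR (wave_spacetime (hT x)) hne e1 e2⟩

end Vale.Agent.P354L
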