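import Vale.Agent.P354.H298.Avg

open scoped ContDiff
open MeasureTheory Set Filter Topology

namespace Vale.Agent.P354c

open P354r (Rg tens avg_bdd)

lemma rg_sub298 {x : R4} (hx : cv x = 0) (c : ℝ) :
    Rg (Metric.ball (x.1, x.2.2) c) c ⊆ nullBox x c := by
  intro y hy
  obtain ⟨h1, h2, h3⟩ := hy
  refine ⟨?_, h3⟩
  show y ∈ Metric.ball x c
  rw [mem_ball_iff_norm] at h1 ⊢
  have e1 : ((y.1, y.2.2) : ℝ × ℝ × ℝ) - (x.1, x.2.2) = (y.1 - x.1, y.2.2 - x.2.2) := rfl
  rw [e1, Prod.norm_def, max_lt_iff] at h1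
  have e2 : y - x = (y.1 - x.1, y.2.1 - x.2.1, y.2.2 - x.2.2) := rfl
  rw [e2, Prod.norm_def, Prod.norm_def, max_lt_iff, max_lt_iff]
  refine ⟨h1.1, ?_, h1.2⟩
  have e3 : x.2.1 = 0 := hx
  simp only
  rw [e3, sub_zero, Real.norm_eq_abs, abs_lt]
  constructor <;> linarith

/-- **Bridge.** If the integrals of a function F over slabs s < v < t, with a weight phi depending
on u, theta1, theta2 only, are unbounded, then F is not bounded as a distribution of first order. -/
theorem isBig_of_slab {x : R4} (hx : cv x = 0) {c : ℝ} {k : ℝ → ℝ} (hkm : Measurable k)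
    (hk : IntegrableOn k (Ioo (-c) 0)) {F : R4 → ℝ} {φ : ℝ × ℝ × ℝ → ℝ} (hφ : ContDiff ℝ 1 φ)
    (hφs : tsupport φ ⊆ Metric.ball (x.1, x.2.2) c)
    (hbig : ∀ L : ℝ, ∃ s ∈ Ioo (-c) 0, ∃ t ∈ Ioo s 0,
      L < |∫ y in {y : R4 | s < cv y ∧ cv y < t}, φ (y.1, y.2.2) * F y|) :
    IsBig (nullBox x c) 1 (fun y => 1 + k (cv y)) F := by
  by_contra hcon
  unfold IsBig at hcon
  push Not at hcon
  obtain ⟨L, hL⟩ := hcon
  have hφc : HasCompactSupport φ := by
    refine HasCompactSupport.of_support_subset_isCompact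
      (isCompact_closedBall ((x.1, x.2.2) : ℝ × ℝ × ℝ) c) ?_
    exact (subset_tsupport φ).trans (hφs.trans Metric.ball_subset_closedBall)
  obtain ⟨B, hB⟩ := avg_bdd (O := Metric.ball (x.1, x.2.2) c) (c := c) (k := fun v => |k v|)
    hkm.abs hk.abs (F := F) (L := 4 * |L|) (by positivity) (fun ψ h1 h2 h3 => by
      have hs := h3.trans (rg_sub298 hx c)
      have h4 := hL ψ h1 hs
      have hs' : tsupport ψ ⊆ P354p.nullBox x c := by
        intro y hy
        obtain ⟨h5, h6⟩ := hs hy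
        have h7 : y ∈ Metric.ball x c := h5
        rw [mem_ball_iff_norm] at h7
        exact ⟨h7, h6⟩
      have i1 := P354k.int_k (z0 := x) (r := c) (k := fun v => |k v|) hkm.abs hx hk.abs
        h1.continuous h2 hs'
      have i2 := int_norm h1 h2
      have hvol := P354p.volume_haar
      refine h4.trans ((le_abs_self _).trans ?_)
      rw [abs_mul, mul_assoc]
      have h5 : |int fun y => (1 + k (cv y)) * |ψ y| + |deriv ψ y d1| + |deriv ψ y d2| +
          1 * (|deriv ψ y du| + |deriv ψ y dv|)| ≤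
          4 * ∫ y, ((1 + |k (P354p.cv y)|) * |ψ y| + ‖fderiv ℝ ψ y‖) := by
        rw [← integral_const_mul]
        have i3 : Integrable (fun y : R4 =>
            4 * ((1 + |k (P354p.cv y)|) * |ψ y| + ‖fderiv ℝ ψ y‖)) := (i1.add i2).const_mul 4
        unfold int
        rw [← Real.norm_eq_abs]
        refine norm_integral_le_of_norm_le i3 (Filter.Eventually.of_forall fun y => ?_)
        simp only [der_eq h1]
        have n1 : ∀ a : R4, ‖a‖ = 1 → |fderiv ℝ ψ y a| ≤ ‖fderiv ℝ ψ y‖ := by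
          intro a ha
          have q0 := ContinuousLinearMap.le_opNorm (fderiv ℝ ψ y) a
          rw [ha, mul_one] at q0
          exact q0
        have m1 := n1 d1 (by simp [d1, Prod.norm_def])
        have m2 := n1 d2 (by simp [d2, Prod.norm_def])
        have m3 := n1 du (by simp [du, Prod.norm_def])
        have m4 := n1 dv (by simp [dv, Prod.norm_def])
        have m5 : abs ((1 + k (cv y)) * |ψ y|) ≤ 4 * ((1 + |k (cv y)|) * |ψ y|) := by
          rw [abs_mul, abs_abs]
          have q1 : |1 + k (cv y)| ≤ 1 + |k (cv y)| := by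
            refine (abs_add_le _ _).trans ?_
            rw [abs_one]
          have q2 := mul_le_mul_of_nonneg_right q1 (abs_nonneg (ψ y))
          have q3 : 0 ≤ (1 + |k (cv y)|) * |ψ y| := by positivity
          linarith
        have m6 : (1 + k (cv y)) = (1 + k (P354p.cv y)) := rfl
        have m7 : ‖(1 + k (cv y)) * |ψ y| + |fderiv ℝ ψ y d1| + |fderiv ℝ ψ y d2| +
            1 * (|fderiv ℝ ψ y du| + |fderiv ℝ ψ y dv|)‖ ≤
            abs ((1 + k (cv y)) * |ψ y|) + |fderiv ℝ ψ y d1| + |fderiv ℝ ψ y d2| +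
            (|fderiv ℝ ψ y du| + |fderiv ℝ ψ y dv|) := by
          rw [one_mul, Real.norm_eq_abs]
          have a1 := abs_add_le ((1 + k (cv y)) * |ψ y| + |fderiv ℝ ψ y d1| + |fderiv ℝ ψ y d2|)
            (|fderiv ℝ ψ y du| + |fderiv ℝ ψ y dv|)
          have a2 := abs_add_le ((1 + k (cv y)) * |ψ y| + |fderiv ℝ ψ y d1|) (|fderiv ℝ ψ y d2|)
          have a3 := abs_add_le ((1 + k (cv y)) * |ψ y|) (|fderiv ℝ ψ y d1|)
          have a4 := abs_of_nonneg (add_nonneg (abs_nonneg (fderiv ℝ ψ y du))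
            (abs_nonneg (fderiv ℝ ψ y dv)))
          rw [abs_abs] at a2 a3
          linarith
        refine m7.trans ?_
        show _ ≤ 4 * ((1 + |k (cv y)|) * |ψ y| + ‖fderiv ℝ ψ y‖)
        linarith
      have h6 := mul_le_mul_of_nonneg_left h5 (abs_nonneg L)
      rw [mul_left_comm] at h6
      exact h6)
    hφ hφc hφs
  obtain ⟨s, hs, t, ht, hst⟩ := hbig B
  exact absurd (hB s hs t ht) (not_le.2 hst)

end Vale.Agent.P354c
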