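import Vale.Agent.P354.H251.Inx
import Vale.Agent.P354L.Box

set_option linter.unusedSectionVars false

open scoped ContDiff
open MeasureTheory Set Filter Topology

namespace Vale.Agent.P354L

open Vale.Agent.P354n (R4 Spc IsSpacetime IsSmooth IsC0W1 IsDNBox EndsAt nullBox cornerBox
  IsFutureCurve IsFutureExtension IsConn Riem IsFar IsIsom deriv du dv cu cv c1 c2 half Up Dn rev
  IsInext isSpacetime_dn isIsom_dn isFutureCurve_dn isFar_up tgt On co)

/-- the regularity classes -/
def Rg (Reg : (R4 → ℝ) → Set R4 → Prop) : Prop := Reg = IsLip ∨ Reg = IsC0W1 ⊤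

lemma lip_reg {f : R4 → ℝ} {D : Set R4} (hD : IsOpen D) (hf : IsLip f D) : IsC0W1 ⊤ f D :=
  P354k.isC0W1_of_locallyLipschitzOn hD hf

lemma reg_up {Reg : (R4 → ℝ) → Set R4 → Prop} (hR : Rg Reg) {N : Spc}
    (h : IsSpacetime Reg N) : IsSpacetime (IsC0W1 ⊤) N := by
  rcases hR with rfl | rfl
  · exact
      { tensor := h.tensor
        signature := h.signature
        timelike := h.timelike
        continuous := h.continuous
        regular := fun e a b => lip_reg (N.toE e).open_target (h.regular e a b) }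
  · exact h

lemma reg_ext {Reg : (R4 → ℝ) → Set R4 → Prop} (hR : Rg Reg) {M N : Spc} {ι : M.pt → N.pt}
    {c : ℝ → N.pt} (h : IsFutureExtension Reg M N ι c) : IsFutureExtension (IsC0W1 ⊤) M N ι c :=
  { spacetime := reg_up hR h.spacetime
    embedding := h.embedding
    isometry := h.isometry
    proper := h.proper
    curve := h.curve
    curve_mem := h.curve_mem
    curve_end := h.curve_end }

lemma fr_half (C : ℕ → R4 → ℝ) (x a : R4) : fr C x a = P354k.fr (half C) x a := by
  have h4 : half C 4 x = C 4 x := by simp [half]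
  have h5 : half C 5 x = C 5 x := by simp [half]
  unfold fr P354k.fr
  rw [h4, h5]
  rfl

lemma conn_iff {g : R4 → R4 → R4 → ℝ} {G : R4 → R4 → R4 → R4} {x : R4} (h : IsConn g G x) :
    P354k.Conn g G x := by
  intro a b c
  exact h a b c

/-- the two notions of largeness -/
lemma big_iff {D : Set R4} {k : ℝ → ℝ} {F : R4 → ℝ} (h : IsBig D k F) :
    P354c.IsBig D 1 (fun y => 1 + k (cv y)) F := by
  intro L
  obtain ⟨φ, h1, h2, h3⟩ := h L
  refine ⟨φ, h1, h2, ?_⟩
  refine lt_of_le_of_lt (le_of_eq ?_) h3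
  congr 1
  refine integral_congr_ae (Filter.Eventually.of_forall fun y => ?_)
  show (1 + k (cv y)) * |φ y| + |deriv φ y d1| + |deriv φ y d2| +
    1 * (|deriv φ y du| + |deriv φ y dv|) = _
  ring

section

variable {M N : Spc} {ι : M.pt → N.pt}

theorem front_n (hM : IsSpacetime IsSmooth M)
    (hg' : IsSpacetime (IsC0W1 ⊤) N) (h : IsOpenEmbedding ι) (hI : IsIsom ι) {c : ℝ → N.pt}
    (hc : IsFutureCurve N 0 (Icc 0 1) c) {a : ℝ → M.pt} (ha : ∀ t ∈ Ico (0:ℝ) 1, ι (a t) = c t)
    (hf : EndsAtFront M a) : False := by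
  obtain ⟨e, C, z, r, K, k, G, hdn, hz, hain, hw, hall⟩ := hf
  obtain ⟨x0, hx0⟩ := hain.nonempty
  have hr := Vale.Agent.P354n.nullBox_r hx0
  have hK := hdn.K_one hx0
  have hdn' : P354p.IsDNBox (Up M) e (half C) (nullBox z r) r (2 * K) k (fun _ => 2 * K) :=
    hdn.up hM hr (fun _ _ => by linarith only [hK]) (fun f hf => by
      rcases hf with rfl | rfl
      · exact hdn.integrable f (Or.inl rfl)
      · exact Vale.Agent.P354n.const_inLp)
  have hB : P354p.FrontBox (Up M) e (half C) z r (2 * K) k :=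
    ⟨hdn', hz, fun x hx => by simp [half, (hw x hx).1, (hw x hx).2.1]⟩
  refine P354c.front_lip (M := Up M) (N := Up N) hM.up hg'.up h hI.up (hc.up le_rfl) ha hB
    (Γ := G) hain (fun x hx => conn_iff (hw x hx).2.2) (fun x hx hxr c hc => ?_)
  -- a small radius, on which k is integrable
  set c1 := min c (r / 2) with hc1
  have hc10 : 0 < c1 := lt_min hc (by linarith)
  obtain ⟨p, q, s, t, h1⟩ := hall x hx hxr c1 hc10
  have hk1 : IsBig (nullBox x c1) k (Rc M e C G p q s t) := by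
    rcases h1 with h1 | h1
    · obtain ⟨hkm, hki⟩ := hdn.integrable k (Or.inl rfl)
      refine big_of_mean hx hkm ?_ h1
      refine lt_of_le_of_lt (eLpNorm_mono_measure k (Measure.restrict_mono
        (Ioo_subset_Ioo_left ?_) le_rfl)) hki
      have := min_le_right c (r / 2)
      linarith
    · exact h1
  have hk2 : IsBig (nullBox x c) k (Rc M e C G p q s t) := fun L => by
    obtain ⟨φ, k1, k2, k3⟩ := hk1 L
    exact ⟨φ, k1, k2.trans fun y hy => ⟨hy.1.trans_le (min_le_left _ _), hy.2⟩, k3⟩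
  left
  refine ⟨p, q, s, t, ?_⟩
  have h2 := big_iff hk2
  unfold Rc at h2
  simp only [fr_half] at h2
  exact h2

/-- **The local theorem.** -/
theorem local_inext (hM : IsSpacetime IsSmooth M)
    (hg' : IsSpacetime (IsC0W1 ⊤) N) (h : IsOpenEmbedding ι) (hI : IsIsom ι) {c : ℝ → N.pt}
    (hc : IsFutureCurve N 0 (Icc 0 1) c) {a : ℝ → M.pt} (ha : ∀ t ∈ Ico (0:ℝ) 1, ι (a t) = c t) :
    ¬ Ends M a := by
  rintro (hf | hcor | hfar)
  · exact front_n hM hg' h hI hc ha hf
  · obtain ⟨e, C, z, r, K, k, hdn, hu, hv, hain, hcl⟩ := hcor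
    obtain ⟨x0, hx0⟩ := hain.nonempty
    have hr := Vale.Agent.P354n.nullBox_r hx0.1
    have hdn' : P354p.IsDNBox (Up M) e (half C) (cornerBox z r) r (2 * K) k k :=
      hdn.up hM hr (fun _ _ => le_rfl) hdn.integrable
    obtain ⟨a', c', hc', ha', hcur, y, hy, h1, h2, h3⟩ := P354p.corner_stepE le_top hM.up hg'.up h
      hI.up (hc.up le_rfl) ha hdn' hu hv hain
    exact front_n hM hg' h hI (P354n.IsFutureCurve.of hc') ha'
      (hcl a' (P354n.IsFutureCurve.of hcur) y hy h1 h2 h3)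
  · exact P354p.not_isFar hM.up hg'.up h hI.up (hc.up le_rfl) ha (isFar_up hfar)

end

/-- **The curve of an extension.** -/
theorem extension_curve (M N : Spc) (hM : IsSpacetime IsSmooth M)
    (ι : M.pt → N.pt) (c : ℝ → N.pt) (hE : IsFutureExtension (IsC0W1 ⊤) M N ι c) :
    ∃ a, IsFutureCurve M 0 (Ico 0 1) a ∧ (∀ x, ¬ Tendsto a (𝓝[<] 1) (𝓝 x)) ∧ ¬ Ends M a := by
  have h0 : (0:ℝ) ∈ Ico (0:ℝ) 1 := by constructor <;> norm_num
  have hex : ∀ t : ℝ, ∃ x : M.pt, t ∈ Ico (0:ℝ) 1 → ι x = c t := by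
    intro t
    by_cases ht : t ∈ Ico (0:ℝ) 1
    · obtain ⟨x, hx⟩ := hE.curve_mem t ht
      exact ⟨x, fun _ => hx⟩
    · obtain ⟨x, hx⟩ := hE.curve_mem 0 h0
      exact ⟨x, fun h => absurd h ht⟩
  choose a ha using hex
  have ha' : ∀ t ∈ Ico (0:ℝ) 1, ι (a t) = c t := fun t ht => ha t ht
  refine ⟨a, P354n.IsFutureCurve.of (P354p.ray_of_curve (M := Up M) (N := Up N) hM.up
    hE.spacetime.up hE.embedding hE.isometry.up (hE.curve.up le_rfl) ha'), ?_,
    local_inext hM hE.spacetime hE.embedding hE.isometry hE.curve ha'⟩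
  intro x hx
  have h1 : Tendsto (fun t => ι (a t)) (𝓝[<] 1) (𝓝 (ι x)) :=
    (hE.embedding.continuous.tendsto x).comp hx
  have h2 : Tendsto c (𝓝[<] 1) (𝓝 (c 1)) := by
    have h3 : ContinuousWithinAt c (Icc 0 1) 1 := hE.curve.1 1 (by constructor <;> norm_num)
    refine h3.mono_left ?_
    rw [← nhdsWithin_Ico_eq_nhdsLT (zero_lt_one (α := ℝ))]
    exact nhdsWithin_mono _ Ico_subset_Icc_self
  have h4 : Tendsto (fun t => ι (a t)) (𝓝[<] 1) (𝓝 (c 1)) := by
    refine h2.congr' ?_
    filter_upwards [Ico_mem_nhdsLT (zero_lt_one (α := ℝ))] with t ht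
    exact (ha' t ht).symm
  have h5 : ι x = c 1 := tendsto_nhds_unique h1 h4
  have h6 := hE.curve_end
  rw [hE.embedding.isOpen_range.frontier_eq] at h6
  exact h6.2 ⟨x, h5⟩

/-- The local and the global theorem. -/
theorem inext1 {Reg : (R4 → ℝ) → Set R4 → Prop} (hR : Rg Reg) {M : Spc}
    (hM : IsSpacetime IsSmooth M) : (∀ N ι c a, IsFutureExtension Reg M N ι c →
      (∀ t ∈ Ico (0 : ℝ) 1, ι (a t) = c t) → ¬ Ends M a) ∧
      (AllEnd M → ∀ N ι c, ¬ IsFutureExtension Reg M N ι c) := by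
  refine ⟨fun _ _ _ _ hE ha => local_inext hM (reg_up hR hE.spacetime) hE.embedding hE.isometry
    hE.curve ha, fun h N ι c hE => ?_⟩
  obtain ⟨a, h1, h2, h3⟩ := extension_curve M N hM ι c (reg_ext hR hE)
  exact h3 (h a h1 h2)

/-- **Two-sided inextendibility.** -/
theorem inext2 {Reg : (R4 → ℝ) → Set R4 → Prop} (hR : Rg Reg) {M : Spc}
    (hM : IsSpacetime IsSmooth M) (hne : Nonempty M.pt)
    (h1 : AllEnd M) (h2 : AllEnd (rev M)) : IsInext Reg M := by
  intro N ι hN hc hemb hI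
  by_contra hnu
  have hN' := reg_up hR hN
  have hNu : P354p.IsSpacetime (IsC0W1 ⊤) (Up N) := hN'.up
  obtain ⟨c, hc1, hc2, hc3⟩ := P354v.bdry (N := Up N) (fun f D h => h.1) hNu hc
    hemb.isOpen_range (range_nonempty ι) hnu
  rcases hc3 with hc3 | hc3
  · exact (inext1 (Or.inr rfl) hM).2 h1 N ι c
      { spacetime := hN'
        embedding := hemb
        isometry := hI
        proper := hnu
        curve := isFutureCurve_dn (M := Up N) hc3
        curve_mem := hc1
        curve_end := hc2 }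
  · exact (inext1 (Or.inr rfl) (P354v.T.N.rev_spacetime hM)).2 h2 (rev N) ι c
      { spacetime := P354v.T.N.rev_spacetime hN'
        embedding := hemb
        isometry := P354v.T.N.rev_isom hN' hemb.continuous hI
        proper := hnu
        curve := isFutureCurve_dn (M := P354v.rv (Up N)) hc3
        curve_mem := hc1
        curve_end := hc2 }

end Vale.Agent.P354L
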