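import Vale.Agent.P354.H251.Gen
import Vale.Agent.P354L.Loc

set_option linter.unusedSectionVars false

open scoped ContDiff
open MeasureTheory Set Filter Topology

namespace Vale.Agent.P354L

open Vale.Agent.P354n (R4 Spc IsSpacetime IsSmooth IsC0W1 IsDNBox EndsAt nullBox cornerBox
  IsFutureCurve IsFutureExtension IsConn Riem IsFar IsIsom deriv du dv cu cv c1 c2 half Up Dn rev
  IsInext isSpacetime_dn isIsom_dn isFutureCurve_dn isFutureExtension_dn isFar_up tgt On co InLp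
  IsData wave coef phi IsVacuum IsGH IsMax)
open Vale.Agent.P354v (Pb Db)
open Vale.Agent.P354v.G (PG AA BB DA DB GC Mod MM VV gg_GG mod_true mod_false riem Wt KK1 bt
  qf fc xe xe_deriv phi_bd bt_deriv bt_cont bt_bd qf_int qf_cont qf_deriv phi_deriv T1 cf dat
  coef_deriv coef_deriv2 coef_in)
open Vale.Agent.P354v.G.N (CN kw kw_int dnbox far)

/-- if a primitive of exp (2 W) g' is bounded, then g is bounded -/
lemma g_bdd {g g1 W w P : ℝ → ℝ} {c c0 T B : ℝ} (hc : 0 < c) (hc0 : 0 < c0)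
    (hg : ∀ v ∈ Ioo (-c) 0, HasDerivAt g (g1 v) v)
    (hW : ∀ v ∈ Ioo (-c) 0, HasDerivAt W (w v) v) (hwc : ContinuousOn w (Ioo (-c) 0))
    (hWT : ∀ v ∈ Ioo (-c) 0, |W v| ≤ T) (hwi : IntegrableOn w (Ioo (-c) 0))
    (hP : ∀ v ∈ Ioo (-c) 0, HasDerivAt P (c0 * Real.exp (2 * W v) * g1 v) v)
    (hB : ∀ v ∈ Ioo (-c) 0, |P v| ≤ B) :
    ∃ B', ∀ v ∈ Ioo (-(c / 2)) 0, |g v| ≤ B' := by
  have h0m : -(c / 2) ∈ Ioo (-c) 0 := ⟨by linarith, by linarith⟩
  have hB0 : 0 ≤ B := (abs_nonneg _).trans (hB _ h0m)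
  set H : ℝ → ℝ := fun v => g v - Real.exp (-(2 * W v)) * P v / c0 with hH
  set D : ℝ → ℝ := fun v => 2 * w v * Real.exp (-(2 * W v)) * P v / c0 with hD
  have hHd : ∀ v ∈ Ioo (-c) 0, HasDerivAt H (D v) v := by
    intro v hv
    have k1 : HasDerivAt (fun v => Real.exp (-(2 * W v)))
        (Real.exp (-(2 * W v)) * (-(2 * w v))) v := ((hW v hv).const_mul 2).neg.exp
    have k2 := (hg v hv).sub (((k1.mul (hP v hv))).div_const c0)
    refine k2.congr_deriv ?_
    have k3 : Real.exp (-(2 * W v)) * Real.exp (2 * W v) = 1 := by rw [← Real.exp_add]; simp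
    simp only [hD]
    field_simp
    linear_combination (-(c0 * g1 v)) * k3
  have hexp : ∀ v ∈ Ioo (-c) 0, Real.exp (-(2 * W v)) ≤ Real.exp (2 * T) := fun v hv =>
    Real.exp_le_exp.2 (by linarith [(abs_le.1 (hWT v hv)).1])
  set Q : ℝ := 2 * Real.exp (2 * T) * B / c0 with hQ
  have hQ0 : 0 ≤ Q := by positivity
  have hDle : ∀ v ∈ Ioo (-c) 0, |D v| ≤ Q * |w v| := by
    intro v hv
    have e : |D v| = 2 * |w v| * Real.exp (-(2 * W v)) * |P v| / c0 := by
      simp only [hD]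
      rw [abs_div, abs_mul, abs_mul, abs_mul, abs_of_pos hc0, abs_of_pos (Real.exp_pos _),
        abs_of_pos (by norm_num : (0:ℝ) < 2)]
    have k1 := hexp v hv
    have k2 := hB v hv
    rw [e, hQ]
    rw [div_mul_eq_mul_div]
    refine div_le_div_of_nonneg_right ?_ hc0.le
    calc 2 * |w v| * Real.exp (-(2 * W v)) * |P v| ≤ 2 * |w v| * Real.exp (2 * T) * B := by gcongr
      _ = _ := by ring
  have hPc : ContinuousOn P (Ioo (-c) 0) := fun v hv => (hP v hv).continuousAt.continuousWithinAt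
  have hWc : ContinuousOn W (Ioo (-c) 0) := fun v hv => (hW v hv).continuousAt.continuousWithinAt
  have hEc : ContinuousOn (fun v => Real.exp (-(2 * W v))) (Ioo (-c) 0) :=
    Real.continuous_exp.comp_continuousOn (continuousOn_const.mul hWc).neg
  have hDc : ContinuousOn D (Ioo (-c) 0) :=
    (((continuousOn_const.mul hwc).mul hEc).mul hPc).div_const c0
  refine ⟨|H (-(c / 2))| + Q * (∫ v in Ioo (-c) 0, |w v|) + Real.exp (2 * T) * B / c0,
    fun v hv => ?_⟩
  have hv' : v ∈ Ioo (-c) 0 := ⟨by linarith [hv.1], hv.2⟩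
  have hsub : uIcc (-(c / 2)) v ⊆ Ioo (-c) 0 := by
    rw [uIcc_of_le hv.1.le]
    exact fun t ht => ⟨by linarith [ht.1], ht.2.trans_lt hv.2⟩
  have h1 : ∫ t in (-(c / 2))..v, D t = H v - H (-(c / 2)) :=
    intervalIntegral.integral_eq_sub_of_hasDerivAt (fun t ht => hHd t (hsub ht))
      ((hDc.mono hsub).intervalIntegrable)
  have h2 : |∫ t in (-(c / 2))..v, D t| ≤ Q * ∫ v in Ioo (-c) 0, |w v| := by
    rw [intervalIntegral.integral_of_le hv.1.le, ← integral_const_mul]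
    have hs : Ioc (-(c / 2)) v ⊆ Ioo (-c) 0 := fun t ht =>
      ⟨by linarith [ht.1], ht.2.trans_lt hv.2⟩
    have hi : IntegrableOn (fun t => Q * |w t|) (Ioo (-c) 0) := hwi.abs.const_mul _
    have k1 : ‖∫ t in Ioc (-(c / 2)) v, D t‖ ≤ ∫ t in Ioc (-(c / 2)) v, Q * |w t| := by
      refine norm_integral_le_of_norm_le (hi.mono_set hs) ?_
      rw [ae_restrict_iff' measurableSet_Ioc]
      exact Eventually.of_forall fun t ht => hDle t (hs ht)
    refine k1.trans ?_
    · exact setIntegral_mono_set hi (Eventually.of_forall fun t => by positivity) hs.eventuallyLE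
  have h3 : g v = H v + Real.exp (-(2 * W v)) * P v / c0 := by simp only [hH]; ring
  have h4 : |Real.exp (-(2 * W v)) * P v / c0| ≤ Real.exp (2 * T) * B / c0 := by
    rw [abs_div, abs_mul, abs_of_pos hc0, abs_of_pos (Real.exp_pos _)]
    have k1 := hexp v hv'
    have k2 := hB v hv'
    gcongr
  have h5 : |H v| ≤ |H (-(c / 2))| + |∫ t in (-(c / 2))..v, D t| := by
    rw [h1]
    have := abs_add_le (H (-(c / 2))) (H v - H (-(c / 2)))
    rwa [add_sub_cancel] at this
  rw [h3]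
  refine (abs_add_le _ _).trans ?_
  linarith

lemma box_Db [PG] {x y : R4} (hx : cv x = 0) (hy : y ∈ nullBox x (1 / 2)) : y ∈ Db 0 :=
  P354v.G.N.box_sub hx hy

section

variable [PG]

/-- **The curvature of a plane wave is large.** -/
lemma big_wave {W w g g1 : ℝ → ℝ} {c0 T : ℝ} (hc0 : 0 < c0)
    (hg : ∀ v ∈ Ioo (-1 : ℝ) 0, HasDerivAt g (g1 v) v)
    (hW : ∀ v ∈ Ioo (-1 : ℝ) 0, HasDerivAt W (w v) v) (hwc : ContinuousOn w (Ioo (-1) 0))
    (hWT : ∀ v ∈ Ioo (-1 : ℝ) 0, |W v| ≤ T) (hwi : IntegrableOn w (Ioo (-1) 0))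
    (hg1 : ContinuousOn g1 (Ioo (-1) 0))
    (hA : ∀ v ∈ Ioo (-1 : ℝ) 0, ∃ A2, HasDerivAt DA A2 v ∧
      A2 / 2 - (DA v) ^ 2 / (4 * AA v) = c0 * Real.exp (2 * W v) * g1 v)
    (hun : ∀ b < 0, ∀ B, ∃ v ∈ Ioo b 0, B < |g v|)
    {x : R4} (hx : cv x = 0) {c : ℝ} (hc : 0 < c) :
    ∃ p q s t, IsBigMean (nullBox x c) fun y => Riem P354v.G.gg GC y p q s t := by
  refine ⟨dv, d1, dv, d1, ?_⟩
  set c' := min c 1 / 2 with hc'
  have hm1 : 0 < min c 1 := lt_min hc one_pos
  have hc0' : 0 < c' := by rw [hc']; linarith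
  have hc1 : c' < c := by have := min_le_left c 1; rw [hc']; linarith
  have hc2 : c' ≤ 1 / 2 := by have := min_le_right c 1; rw [hc']; linarith
  set R : ℝ → ℝ := fun v => c0 * Real.exp (2 * W v) * g1 v with hR
  have hval : ∀ y ∈ Db 0, Riem P354v.G.gg GC y dv d1 dv d1 = R (cv y) := by
    intro y hy
    have hy' : cv y ∈ Ioo (-1 : ℝ) 0 := ⟨hy.1, by
      have h5 := hy.2
      rw [Nat.cast_zero] at h5
      exact h5⟩
    obtain ⟨A2, h1, h2⟩ := hA _ hy'
    obtain ⟨-, B2, -, h3, -⟩ := PG.ok.vac (cv y) hy'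
    have h4 := riem hy h1 h3 dv d1 dv d1
    have hA0 := (P354v.G.AA_bd (cv y)).1
    simp only [R]
    rw [← h2]
    refine h4.trans ?_
    rw [gg_GG, gg_GG]
    have hne : AA (P354p.cv y) ≠ 0 := by
      have : AA (P354p.cv y) = AA (cv y) := rfl
      rw [this]; linarith
    simp only [dv, d1, P354p.cv, P354p.c1, P354p.c2, cv] at hne ⊢
    field_simp
    ring
  have hWc : ContinuousOn W (Ioo (-1) 0) := fun v hv => (hW v hv).continuousAt.continuousWithinAt
  have hRc : ContinuousOn R (Ioo (-1) 0) :=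
    (continuousOn_const.mul
      (Real.continuous_exp.comp_continuousOn (continuousOn_const.mul hWc))).mul hg1
  have hx0 : x.2.1 = 0 := hx
  refine ⟨fun _ => 1, contDiff_const, fun L => ?_⟩
  by_contra hcon
  push Not at hcon
  -- the boxes
  have box : ∀ v ∈ Ioo (-c') 0, (2 * c') ^ 3 * |∫ t in (-c')..v, R t| ≤ L := by
    intro v hv
    have h1 := hcon (x.1 - c', -c', x.2.2.1 - c', x.2.2.2 - c')
      (x.1 + c', v, x.2.2.1 + c', x.2.2.2 + c') (by
        rintro y ⟨⟨l1, l2, l3, l4⟩, ⟨u1, u2, u3, u4⟩⟩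
        simp only at l1 l2 l3 l4 u1 u2 u3 u4
        refine ⟨?_, lt_of_le_of_lt u2 hv.2⟩
        have e : ‖y - x‖ = max |y.1 - x.1| (max |y.2.1 - x.2.1| (max |y.2.2.1 - x.2.2.1|
          |y.2.2.2 - x.2.2.2|)) := rfl
        rw [e, hx0, sub_zero]
        refine max_lt ?_ (max_lt ?_ (max_lt ?_ ?_)) <;> rw [abs_lt] <;>
          constructor <;> linarith [hv.2])
    set a : R4 := (x.1 - c', -c', x.2.2.1 - c', x.2.2.2 - c') with ha
    set b : R4 := (x.1 + c', v, x.2.2.1 + c', x.2.2.2 + c') with hb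
    have iJ : ∀ s t : ℝ, Integrable ((Icc s t).indicator (fun _ => (1:ℝ))) := fun s t => by
      refine (integrable_indicator_iff measurableSet_Icc).2 ?_
      simp
    have iR : Integrable ((Icc (-c') v).indicator R) := by
      refine (integrable_indicator_iff measurableSet_Icc).2 ?_
      refine (hRc.mono ?_).integrableOn_compact isCompact_Icc
      exact fun t ht => ⟨by linarith [ht.1], ht.2.trans_lt hv.2⟩
    have h2 := (p4_int (iJ (x.1 - c') (x.1 + c')) iR (iJ (x.2.2.1 - c') (x.2.2.1 + c'))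
      (iJ (x.2.2.2 - c') (x.2.2.2 + c'))).2
    have h3 : ∫ y in Icc a b, (1:ℝ) * Riem P354v.G.gg GC y dv d1 dv d1 =
        ∫ w, p4 ((Icc (x.1 - c') (x.1 + c')).indicator fun _ => 1) ((Icc (-c') v).indicator R)
          ((Icc (x.2.2.1 - c') (x.2.2.1 + c')).indicator fun _ => 1)
          ((Icc (x.2.2.2 - c') (x.2.2.2 + c')).indicator fun _ => 1) w := by
      rw [← integral_indicator measurableSet_Icc]
      refine integral_congr_ae (Eventually.of_forall fun w => ?_)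
      by_cases hw : w ∈ Icc a b
      · rw [indicator_of_mem hw]
        obtain ⟨⟨l1, l2, l3, l4⟩, ⟨u1, u2, u3, u4⟩⟩ := hw
        unfold p4
        rw [indicator_of_mem (show w.1 ∈ Icc (x.1 - c') (x.1 + c') from ⟨l1, u1⟩),
          indicator_of_mem (show w.2.1 ∈ Icc (-c') v from ⟨l2, u2⟩),
          indicator_of_mem (show w.2.2.1 ∈ Icc (x.2.2.1 - c') (x.2.2.1 + c') from ⟨l3, u3⟩),
          indicator_of_mem (show w.2.2.2 ∈ Icc (x.2.2.2 - c') (x.2.2.2 + c') from ⟨l4, u4⟩)]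
        have h5 : -c' ≤ w.2.1 := l2
        have h6 : w.2.1 ≤ v := u2
        have h4 : w ∈ Db 0 := ⟨by
          show -1 < w.2.1
          linarith, by
          show w.2.1 < ((0:ℕ):ℝ)
          rw [Nat.cast_zero]
          exact h6.trans_lt hv.2⟩
        rw [hval w h4]
        show 1 * R w.2.1 = _
        ring
      · rw [indicator_of_notMem hw]
        symm
        by_contra hne
        have g1 := left_ne_zero_of_mul hne
        have g2 := left_ne_zero_of_mul (right_ne_zero_of_mul hne)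
        have g3 := left_ne_zero_of_mul (right_ne_zero_of_mul (right_ne_zero_of_mul hne))
        have g4 := right_ne_zero_of_mul (right_ne_zero_of_mul (right_ne_zero_of_mul hne))
        have m1 := mem_of_indicator_ne_zero g1
        have m2 := mem_of_indicator_ne_zero g2
        have m3 := mem_of_indicator_ne_zero g3
        have m4 := mem_of_indicator_ne_zero g4
        exact hw ⟨⟨m1.1, m2.1, m3.1, m4.1⟩, ⟨m1.2, m2.2, m3.2, m4.2⟩⟩
    have vol : ∀ s : ℝ, ∫ t, (Icc (s - c') (s + c')).indicator (fun _ => (1:ℝ)) t = 2 * c' := by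
      intro s
      rw [integral_indicator measurableSet_Icc, setIntegral_const, measureReal_def,
        Real.volume_Icc, ENNReal.toReal_ofReal (by linarith), smul_eq_mul]
      ring
    have hRi : ∫ t, (Icc (-c') v).indicator R t = ∫ t in (-c')..v, R t := by
      rw [integral_indicator measurableSet_Icc, integral_Icc_eq_integral_Ioc,
        intervalIntegral.integral_of_le hv.1.le]
    rw [h3, h2, vol, vol, vol, hRi] at h1
    refine le_trans (le_of_eq ?_) h1
    rw [show 2 * c' * ((∫ t in (-c')..v, R t) * (2 * c' * (2 * c'))) =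
      (2 * c') ^ 3 * ∫ t in (-c')..v, R t by ring, abs_mul,
      abs_of_nonneg (by positivity : 0 ≤ (2 * c') ^ 3)]
  have q1 : ∀ v ∈ Ioo (-c') 0, HasDerivAt (fun v => ∫ t in (-c')..v, R t)
      (c0 * Real.exp (2 * W v) * g1 v) v := by
    intro v hv
    have hsub : uIcc (-c') v ⊆ Ioo (-1) 0 := by
      rw [uIcc_of_le hv.1.le]
      exact fun t ht => ⟨by linarith [ht.1], ht.2.trans_lt hv.2⟩
    have hv1 : v ∈ Ioo (-1 : ℝ) 0 := ⟨by linarith [hv.1], hv.2⟩
    exact intervalIntegral.integral_hasDerivAt_right ((hRc.mono hsub).intervalIntegrable)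
      (hRc.stronglyMeasurableAtFilter isOpen_Ioo v hv1)
      (hRc.continuousAt (Ioo_mem_nhds hv1.1 hv1.2))
  have q2 : ∀ v ∈ Ioo (-c') 0, |∫ t in (-c')..v, R t| ≤ L / (2 * c') ^ 3 := by
    intro v hv
    rw [le_div_iff₀ (by positivity), mul_comm]
    exact box v hv
  obtain ⟨B', hB'⟩ := g_bdd hc0' hc0
    (fun v hv => hg v ⟨by linarith [hv.1], hv.2⟩) (fun v hv => hW v ⟨by linarith [hv.1], hv.2⟩)
    (hwc.mono (Ioo_subset_Ioo_left (by linarith)))
    (fun v hv => hWT v ⟨by linarith [hv.1], hv.2⟩)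
    (hwi.mono_set (Ioo_subset_Ioo_left (by linarith))) q1 q2
  obtain ⟨v, hv, hvB⟩ := hun (-(c' / 2)) (by linarith) B'
  exact absurd (hB' v hv) (not_le.2 hvB)

end

section

variable [PG] {S : P354p.Spc} {e : S.Chart} {φ : S.pt → Pb 0} {ψ : Pb 0 → S.pt}

/-- curves which tend to a point of v = 0 -/
lemma front (h : Mod S e φ ψ)
    (hN : ∀ x : R4, cv x = 0 → ∀ c > 0, ∃ p q s t, IsBigMean (nullBox x c) fun y =>
      Riem P354v.G.gg GC y p q s t)
    {a : ℝ → S.pt} {z : R4} (hz : cv z = 0)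
    (ht : Tendsto (fun t => (φ (a t)).1) (𝓝[<] 1) (𝓝 z)) : EndsAtFront (Dn S) a := by
  have hg : S.g e = P354v.G.gg := funext fun y => funext fun a => funext fun b => h.g y a b
  refine ⟨e, CN, z, 1 / 2, PG.K, kw, GC, dnbox h hz, hz, ⟨?_, ?_⟩, fun x hx => ⟨rfl, rfl, ?_⟩, ?_⟩
  · have h3 : ∀ᶠ t in 𝓝[<] (1:ℝ), (φ (a t)).1 ∈ Metric.ball z (1 / 2) :=
      ht.eventually (Metric.ball_mem_nhds _ (by norm_num))
    filter_upwards [h3] with t ht'
    rw [mem_ball_iff_norm] at ht'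
    have h4 := (φ (a t)).2.2
    rw [Nat.cast_zero] at h4
    refine ⟨h.on _, ?_⟩
    show P354p.co e (a t) ∈ nullBox z (1 / 2)
    rw [h.co]
    exact ⟨ht', h4⟩
  · refine ht.congr fun t => ?_
    exact (h.co (a t)).symm
  · show IsConn (S.g e) GC x
    rw [hg]
    intro a b c
    have h := P354v.G.conn (box_Db hz hx) a b c
    rw [two_mul]
    exact h
  · intro x hx hxz c hc
    obtain ⟨p, q, s, t, h1⟩ := hN x hx c hc
    refine ⟨p, q, s, t, Or.inl ?_⟩
    show IsBigMean (nullBox x c) fun y => Riem (S.g e) GC y (fr CN y p) (fr CN y q) (fr CN y s)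
      (fr CN y t)
    have hfr : ∀ y a : R4, fr CN y a = a := by
      intro y a
      show (cu a, cv a, c1 a + 0 * cv a, c2 a + 0 * cv a) = a
      rw [zero_mul, add_zero, add_zero]
      rfl
    simp only [hfr, hg]
    exact h1

/-- all curves end -/
theorem ends (h : Mod S e φ ψ)
    (hN : ∀ x : R4, cv x = 0 → ∀ c > 0, ∃ p q s t, IsBigMean (nullBox x c) fun y =>
      Riem P354v.G.gg GC y p q s t)
    {a : ℝ → S.pt} (ha : IsFutureCurve (Dn S) 0 (Ico 0 1) a)
    (hno : ∀ p, ¬ Tendsto a (𝓝[<] 1) (𝓝 p)) : Ends (Dn S) a := by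
  have ha' : P354p.IsFutureCurve S 0 (Ico 0 1) a := ha.up le_rfl
  have hb' := h.to ha'
  by_cases hbd : ∃ B, ∀ t ∈ Ioo (1 / 2 : ℝ) 1, cu (φ (a t)).1 ≤ B
  · obtain ⟨B, hB⟩ := hbd
    obtain ⟨z, hz, h1, h2⟩ := P354v.G.lim_exists hb' hB
    rcases lt_or_eq_of_le h2 with h2 | h2
    · exfalso
      have hz0 : z ∈ Db 0 := ⟨h1, by rw [Nat.cast_zero]; exact h2⟩
      exact hno _ (h.tendsto (q := ⟨z, hz0⟩) (tendsto_subtype_rng.2 hz))
    · exact Or.inl (front h hN h2 hz)
  · push Not at hbd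
    refine Or.inr (Or.inr (far h (P354v.G.curve_data hb').1 fun C => ?_))
    obtain ⟨t, ht, h⟩ := hbd C
    exact ⟨t, ⟨by linarith [ht.1], ht.2⟩, h⟩

end

end Vale.Agent.P354L
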