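import Vale.Agent.P354L.Wave

set_option linter.unusedSectionVars false

open scoped ContDiff
open MeasureTheory Set Filter Topology

namespace Vale.Agent.P354L

open Vale.Agent.P354n (R4 Spc IsSpacetime IsSmooth IsC0W1 nullBox IsFutureExtension Riem
  du dv cu cv c1 c2 Dn rev IsInext InLp IsData wave coef phi IsVacuum IsGH IsMax)
open Vale.Agent.P354v.G (PG AA BB DA DB GC Mod MM VV mod_true mod_false Wt KK1 bt
  qf fc xe phi_bd bt_deriv bt_bd qf_int qf_cont qf_deriv phi_deriv phi_cont d1_deriv d1_cont T1 cf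
  coef_deriv coef_deriv2 coef_in qf_le smooth_prim)
open Vale.Agent.P354v.G.N (pg kw wave_spacetime glue cmem)

section

variable {f : ℝ → ℝ}

/-- phi^2 V' -/
noncomputable def gw (f : ℝ → ℝ) (v : ℝ) : ℝ := phi f v ^ 2 * qf f v

/-- its derivative -/
noncomputable def gw1 (f : ℝ → ℝ) (v : ℝ) : ℝ :=
  2 * phi f v * (-(P354v.G.d1 f v)) * qf f v + phi f v ^ 2 * _root_.deriv (qf f) v

variable (hf : IsData f)
include hf

lemma qf_smooth : ContDiffOn ℝ ∞ (qf f) (Ioo (-1) 0) := by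
  have hd : ContDiffOn ℝ ∞ (P354v.G.d1 f) (Ioo (-1) 0) := smooth_prim (hf.1.pow 2)
    fun s hs => d1_deriv hf hs
  have hp : ContDiffOn ℝ ∞ (phi f) (Ioo (-1) 0) := smooth_prim hd.neg fun s hs => phi_deriv hf hs
  refine hf.1.div (hp.sqrt ?_) ?_
  · intro s hs
    have := (phi_bd hf (Ioo_subset_Icc_self hs)).1
    linarith
  · intro s hs
    have := (phi_bd hf (Ioo_subset_Icc_self hs)).1
    exact (Real.sqrt_pos.2 (by linarith)).ne'

lemma gw_deriv {v : ℝ} (hv : v ∈ Ioo (-1 : ℝ) 0) : HasDerivAt (gw f) (gw1 f v) v := by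
  obtain ⟨z, hz⟩ := qf_deriv hf hv
  have h1 := ((phi_deriv hf hv).pow 2).mul hz
  refine h1.congr_deriv ?_
  unfold gw1
  rw [hz.deriv]
  simp only [Nat.cast_ofNat, Nat.add_one_sub_one, pow_one, Pi.pow_apply]

lemma gw1_cont : ContinuousOn (gw1 f) (Ioo (-1) 0) := by
  have h1 : ContinuousOn (_root_.deriv (qf f)) (Ioo (-1) 0) :=
    (qf_smooth hf).continuousOn_deriv_of_isOpen isOpen_Ioo (by simp)
  have h2 : ContinuousOn (phi f) (Ioo (-1) 0) := (phi_cont hf).mono Ioo_subset_Icc_self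
  exact (((continuousOn_const.mul h2).mul (d1_cont hf).neg).mul (qf_cont hf)).add ((h2.pow 2).mul h1)

/-- the curvature -/
lemma hA_w {v : ℝ} (hv : v ∈ Ioo (-1 : ℝ) 0) : ∃ A2, HasDerivAt (_root_.deriv (coef 1 f)) A2 v ∧
    A2 / 2 - (_root_.deriv (coef 1 f) v) ^ 2 / (4 * coef 1 f v) =
      (2 * Real.exp (2 * T1 f)) * Real.exp (2 * bt f v) * gw1 f v := by
  obtain ⟨z, hz⟩ := qf_deriv hf hv
  refine ⟨_, coef_deriv2 hf 1 hv hz, ?_⟩
  have hp := (phi_bd hf (Ioo_subset_Icc_self hv)).1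
  rw [(coef_deriv hf 1 hv).deriv, coef_in 1 hv]
  unfold gw1
  rw [hz.deriv]
  have hA0 : fc 1 f v ≠ 0 := by
    have := (P354v.G.fc_bd hf (e := 1) (by simp) (Ioo_subset_Icc_self hv)).1
    linarith
  have e1 : fc 1 f v = 2 * Real.exp (2 * T1 f) * phi f v ^ 2 * Real.exp (2 * bt f v) := by
    unfold fc
    rw [mul_one]
  have e2 : 2 * fc 1 f v * (2 * xe 1 f v ^ 2 + (-qf f v ^ 2 - (P354v.G.d1 f v / phi f v) ^ 2 +
      1 * z)) / 2 - (2 * fc 1 f v * xe 1 f v) ^ 2 / (4 * fc 1 f v) =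
      fc 1 f v * (xe 1 f v ^ 2 + (-qf f v ^ 2 - (P354v.G.d1 f v / phi f v) ^ 2 + z)) := by
    field_simp
    ring
  rw [e2, e1]
  unfold xe
  have hp0 : phi f v ≠ 0 := by linarith
  generalize phi f v = P at *
  generalize qf f v = q
  generalize P354v.G.d1 f v = d
  generalize Real.exp (2 * T1 f) = x1
  generalize Real.exp (2 * bt f v) = x2
  field_simp
  ring

lemma f_le_gw {v : ℝ} (hv : v ∈ Ioo (-1 : ℝ) 0) : |f v| ≤ |gw f v| := by
  have hp := (phi_bd hf (Ioo_subset_Icc_self hv)).1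
  have h1 : 1 ≤ √(phi f v) := by rw [Real.one_le_sqrt]; exact hp
  have h0 : 0 < √(phi f v) := by linarith
  have e : f v = √(phi f v) * qf f v := by
    unfold qf
    field_simp
  have h2 : √(phi f v) ≤ phi f v ^ 2 := by
    have h3 : √(phi f v) ≤ phi f v := by
      rw [Real.sqrt_le_left (by linarith)]
      nlinarith
    nlinarith
  unfold gw
  conv_lhs => rw [e]
  rw [abs_mul, abs_mul, abs_of_pos h0, abs_of_nonneg (by positivity : 0 ≤ phi f v ^ 2)]
  exact mul_le_mul_of_nonneg_right h2 (abs_nonneg _)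

omit hf in
/-- a function continuous on (-1,0) which is bounded near 0 is in L^oo near 0 -/
lemma inLp_of_bdd {g : ℝ → ℝ} (hg : ContinuousOn g (Ioo (-1) 0)) {b B : ℝ} (hb : b < 0)
    (h : ∀ v ∈ Ioo b 0, v ∈ Ioo (-1 : ℝ) 0 → |g v| ≤ B) : InLp ⊤ g (-(1 / 2)) := by
  set b' := max (b / 2) (-(1 / 4)) with hb'
  have h1 : b' < 0 := max_lt (by linarith) (by norm_num)
  have h2 : -(1 / 4) ≤ b' := le_max_right _ _
  have h3 : b < b' := lt_of_lt_of_le (by linarith) (le_max_left _ _)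
  have m1 : MemLp g ⊤ (volume.restrict (Icc (-(1 / 2)) b')) :=
    cmem (hg.mono fun v hv => ⟨by linarith [hv.1], hv.2.trans_lt h1⟩)
  have m2 : MemLp g ⊤ (volume.restrict (Ioo b' 0)) := by
    refine memLp_top_of_bound ((hg.mono (Ioo_subset_Ioo_left
      (by linarith))).aestronglyMeasurable measurableSet_Ioo) B ?_
    rw [ae_restrict_iff' measurableSet_Ioo]
    exact Eventually.of_forall fun v hv => h v ⟨h3.trans hv.1, hv.2⟩ ⟨by linarith [hv.1], hv.2⟩
  exact (glue m1 m2).2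

lemma gw_unbdd (hn : ¬ InLp ⊤ f (-(1 / 2))) : ∀ b < 0, ∀ B, ∃ v ∈ Ioo b 0, B < |gw f v| := by
  intro b hb B
  by_contra hcon
  push Not at hcon
  exact hn (inLp_of_bdd (cf hf) hb fun v hv hv1 => (f_le_gw hf hv1).trans (hcon v hv))

/-- **The future end.** -/
theorem future_end (hn : ¬ InLp ⊤ f (-(1 / 2))) : AllEnd (wave f) := by
  intro a h1 h2
  refine @ends (pg hf) _ _ _ _ (@mod_true (pg hf)) (fun x hx c hc => ?_) a h1 h2
  exact @big_wave (pg hf) (bt f) (qf f) (gw f) (gw1 f) (2 * Real.exp (2 * T1 f)) (T1 f)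
    (by positivity) (fun v hv => gw_deriv hf hv) (fun v hv => bt_deriv hf hv) (qf_cont hf)
    (fun v hv => bt_bd hf (Ioo_subset_Icc_self hv)) (qf_int hf) (gw1_cont hf)
    (fun v hv => hA_w hf hv) (gw_unbdd hf hn) x hx c hc

/-- **The past end.** -/
theorem past_end (hn : ¬ InLp ⊤ (fun v => f (-1 - v)) (-(1 / 2))) : AllEnd (rev (wave f)) := by
  have hm : ∀ {v : ℝ}, v ∈ Ioo (-1 : ℝ) 0 → -1 - v ∈ Ioo (-1 : ℝ) 0 := fun hv =>
    ⟨by linarith [hv.2], by linarith [hv.1]⟩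
  have hcm : Continuous fun v : ℝ => -1 - v := by fun_prop
  have hmt : MapsTo (fun v : ℝ => -1 - v) (Ioo (-1) 0) (Ioo (-1) 0) := fun v hv => hm hv
  have hid : ∀ v : ℝ, HasDerivAt (fun v : ℝ => -1 - v) (-1) v := fun v =>
    (hasDerivAt_id v).const_sub (-1)
  have d1' : ∀ (f : ℝ → ℝ) (v : ℝ), _root_.deriv (fun v => f (-1 - v)) v =
      -_root_.deriv f (-1 - v) := fun f v => deriv_comp_const_sub f (-1) v
  intro a h1 h2
  refine @ends (pg hf).rev _ _ _ _ (@mod_false (pg hf) (pg hf)) (fun x hx c hc => ?_) a h1 h2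
  refine @big_wave (pg hf).rev (fun v => bt f (-1 - v)) (fun v => -qf f (-1 - v))
    (fun v => -gw f (-1 - v)) (fun v => gw1 f (-1 - v)) (2 * Real.exp (2 * T1 f)) (T1 f)
    (by positivity) (fun v hv => ?_) (fun v hv => ?_) ((qf_cont hf).comp hcm.continuousOn hmt).neg
    (fun v hv => bt_bd hf (Ioo_subset_Icc_self (hm hv))) ?_
    ((gw1_cont hf).comp hcm.continuousOn hmt) (fun v hv => ?_) ?_ x hx c hc
  · have := (HasDerivAt.comp v (gw_deriv hf (hm hv)) (hid v)).neg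
    refine this.congr_deriv ?_
    ring
  · have := HasDerivAt.comp v (bt_deriv hf (hm hv)) (hid v)
    refine this.congr_deriv ?_
    ring
  · have h3 : Integrable ((Ioo (-1 : ℝ) 0).indicator (qf f)) :=
      (integrable_indicator_iff measurableSet_Ioo).2 (qf_int hf)
    have h4 := (h3.comp_sub_left (-1)).neg
    refine (integrable_indicator_iff measurableSet_Ioo).1 (h4.congr (Eventually.of_forall fun v => ?_))
    by_cases hv : v ∈ Ioo (-1 : ℝ) 0
    · rw [indicator_of_mem hv]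
      show -((Ioo (-1 : ℝ) 0).indicator (qf f) (-1 - v)) = _
      rw [indicator_of_mem (hm hv)]
    · rw [indicator_of_notMem hv]
      show -((Ioo (-1 : ℝ) 0).indicator (qf f) (-1 - v)) = _
      rw [indicator_of_notMem (fun h => hv ⟨by linarith [h.2], by linarith [h.1]⟩), neg_zero]
  · obtain ⟨A2, k1, k2⟩ := hA_w hf (hm hv)
    refine ⟨A2, ?_, ?_⟩
    · have e : (_root_.deriv fun v => coef 1 f (-1 - v)) = fun v => -_root_.deriv (coef 1 f) (-1 - v) :=
        funext fun v => d1' (coef 1 f) v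
      show HasDerivAt (_root_.deriv fun v => coef 1 f (-1 - v)) A2 v
      rw [e]
      have := (HasDerivAt.comp v k1 (hid v)).neg
      refine this.congr_deriv ?_
      ring
    · show A2 / 2 - (_root_.deriv (fun v => coef 1 f (-1 - v)) v) ^ 2 / (4 * coef 1 f (-1 - v)) = _
      rw [d1', neg_sq]
      exact k2
  · intro b hb B
    by_contra hcon
    push Not at hcon
    refine hn (inLp_of_bdd (b := b) (B := B) ((cf hf).comp hcm.continuousOn hmt) hb
      fun v hv hv1 => (f_le_gw hf (hm hv1)).trans ?_)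
    have := hcon v hv
    rwa [abs_neg] at this

end

end Vale.Agent.P354L
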